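import Vale.Agent.P092.H411.Agr
import Vale.Agent.P092.H76.PurA
import Vale.Agent.P092.RC.Defs

/-!
P092 (helper411), Team N, blocks [N-01] and [N-AGR]: the zero-one laws in the picture `RC.Pic`
(general group `G`), and the agreement spaces of a covariant family indexed by a `G`-set.
-/

set_option linter.all false

open scoped InnerProductSpace
open ContinuousLinearMap

namespace Vale.Agent.P092.H411

open Vale.Agent.P092.RC Vale.Agent.P092.H76.Pur

section proj

variable {K : Type*} [NormedAddCommGroup K] [InnerProductSpace ℂ K] [CompleteSpace K]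

/-- The projection onto a closed subspace commutes with every operator which, with its adjoint,
preserves the subspace. -/
theorem comm_starProjection {M : Submodule ℂ K} [CompleteSpace M] {S : K →L[ℂ] K}
    (h : ∀ ζ ∈ M, S ζ ∈ M) (h' : ∀ ζ ∈ M, adjoint S ζ ∈ M) :
    M.starProjection * S = S * M.starProjection := by
  ext1 ζ
  change M.starProjection (S ζ) = S (M.starProjection ζ)
  refine Submodule.eq_starProjection_of_mem_orthogonal
    (h _ (Submodule.starProjection_apply_mem _ _)) ?_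
  rw [Submodule.mem_orthogonal]
  intro u hu
  rw [← map_sub, ← adjoint_inner_left]
  exact Submodule.inner_right_of_mem_orthogonal (h' u hu)
    (Submodule.sub_starProjection_mem_orthogonal ζ)

omit [CompleteSpace K] in
theorem idem_scalar {P : K →L[ℂ] K} {z : ℂ} (h : P = z • (1 : K →L[ℂ] K)) (hP : P * P = P) :
    P = 0 ∨ P = 1 := by
  by_cases hz : z = 0
  · left
    rw [h, hz, zero_smul]
  · right
    have h1 : z • P = z • (1 : K →L[ℂ] K) := by
      calc z • P = (z • (1 : K →L[ℂ] K)) * P := by rw [smul_mul_assoc, one_mul]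
        _ = P * P := by rw [← h]
        _ = z • (1 : K →L[ℂ] K) := by rw [hP, h]
    exact (smul_right_injective _ hz) h1

end proj

section pic

variable {G Γ K : Type} [Group G] [TopologicalSpace G] [Group Γ] [NormedAddCommGroup K]
  [InnerProductSpace ℂ K] [CompleteSpace K]
  {π : G →* (K →L[ℂ] K)} {lam : Γ →* (K →L[ℂ] K)} {W : Set (K →L[ℂ] K)} {Ω : K}

/-- **[N-01]**, operator form. -/
theorem zero_one (hp : RC.Pic π lam W Ω) {S : Set G} (hS : RC.Moore S) {P : K →L[ℂ] K}
    (cm : Cm W P) (cl : ∀ γ, P * lam γ = lam γ * P) (cp : ∀ g ∈ S, P * π g = π g * P)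
    (hP : P * P = P) : P = 0 ∨ P = 1 := by
  obtain ⟨z, hz⟩ := hp.erg S hS P cm cl cp
  exact idem_scalar hz hP

/-- **[N-01]**, subspace form. -/
theorem zero_one_sub (hp : RC.Pic π lam W Ω) {S : Set G} (hS : RC.Moore S) {M : Submodule ℂ K}
    (hM : IsClosed (M : Set K)) (hW : ∀ w ∈ W, ∀ ζ ∈ M, w ζ ∈ M)
    (hL : ∀ γ, ∀ ζ ∈ M, lam γ ζ ∈ M) (hπ : ∀ g ∈ S, ∀ ζ ∈ M, π g ζ ∈ M ∧ π g⁻¹ ζ ∈ M) :
    M = ⊥ ∨ M = ⊤ := by
  haveI : CompleteSpace M := hM.completeSpace_coe
  have h : M.starProjection = 0 ∨ M.starProjection = 1 := by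
    refine zero_one hp hS ?_ ?_ ?_ ?_
    · intro w hw
      exact comm_starProjection (hW w hw) (hW _ (hp.Wadj w hw))
    · intro γ
      refine comm_starProjection (hL γ) ?_
      rw [hp.adjL]
      exact hL γ⁻¹
    · intro g hg
      refine comm_starProjection (fun ζ hζ => (hπ g hg ζ hζ).1) ?_
      rw [hp.adjP]
      exact fun ζ hζ => (hπ g hg ζ hζ).2
    · ext1 ζ
      change M.starProjection (M.starProjection ζ) = M.starProjection ζ
      exact Submodule.starProjection_eq_self_iff.2 (Submodule.starProjection_apply_mem _ _)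
  rcases h with h | h
  · left
    rw [eq_bot_iff]
    intro ζ hζ
    have h1 : M.starProjection ζ = ζ := Submodule.starProjection_eq_self_iff.2 hζ
    rw [h] at h1
    exact (Submodule.mem_bot ℂ).2 h1.symm
  · right
    rw [eq_top_iff]
    intro ζ _
    have h1 : M.starProjection ζ ∈ M := Submodule.starProjection_apply_mem _ _
    rw [h] at h1
    exact h1

section fam

variable {Y I : Type*} [TopologicalSpace Y] [MulAction G I]
  {E : I → (C(Y, ℂ) →⋆ₐ[ℂ] (K →L[ℂ] K))}

omit [TopologicalSpace G] [CompleteSpace K] in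
theorem nrm_cov' {ι : Type*} {β₁ β₂ : ι → K →L[ℂ] K} {U U' : K →L[ℂ] K} (h1 : U * U' = 1)
    (h2 : U' * U = 1) {σ : ι → ι} (ha : ∀ F, U' * β₁ F = β₁ (σ F) * U')
    (hb : ∀ F, U' * β₂ F = β₂ (σ F) * U') : Nrm β₁ β₂ U := by
  refine fun F => ⟨σ F, ?_, ?_⟩
  · calc β₁ F * U = (U * U') * β₁ F * U := by rw [h1, one_mul]
      _ = U * (U' * β₁ F) * U := by simp only [mul_assoc]
      _ = U * β₁ (σ F) * (U' * U) := by rw [ha]; simp only [mul_assoc]
      _ = U * β₁ (σ F) := by rw [h2, mul_one]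
  · calc β₂ F * U = (U * U') * β₂ F * U := by rw [h1, one_mul]
      _ = U * (U' * β₂ F) * U := by simp only [mul_assoc]
      _ = U * β₂ (σ F) * (U' * U) := by rw [hb]; simp only [mul_assoc]
      _ = U * β₂ (σ F) := by rw [h2, mul_one]

/-- **[N-AGR]**, dichotomy: two members of a covariant family are equal or agree nowhere, if the
stabiliser of the pair has the Moore property. -/
theorem agr_sub (hp : RC.Pic π lam W Ω) (cm : ∀ X f, Cm W (E X f))
    (hlam : ∀ γ, ∃ σ : C(Y, ℂ) → C(Y, ℂ), ∀ X f, lam γ * E X f = E X (σ f) * lam γ)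
    (pcov : ∀ g X f, π g * E X f = E (g • X) f * π g) {X X' : I}
    (hS : RC.Moore {g : G | g • X = X ∧ g • X' = X'}) :
    (∀ f, E X f = E X' f) ∨ ∀ ζ, (∀ f, E X f ζ = E X' f ζ) → ζ = 0 := by
  have hl1 : ∀ γ, lam γ * lam γ⁻¹ = 1 := fun γ => by rw [← map_mul, mul_inv_cancel, map_one]
  refine agr_dich (β₁ := fun f => E X f) (β₂ := fun f => E X' f)
    (𝒮 := W ∪ Set.range lam ∪ π '' {g | g • X = X ∧ g • X' = X'}) ?_ ?_
  · intro T hT
    exact hp.erg _ hS T (fun w hw => hT w (Or.inl (Or.inl hw)))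
      (fun γ => hT _ (Or.inl (Or.inr ⟨γ, rfl⟩))) fun g hg => hT _ (Or.inr ⟨g, hg, rfl⟩)
  · rintro S ((hw | ⟨γ, rfl⟩) | ⟨g, ⟨hg1, hg2⟩, rfl⟩)
    · exact ⟨Nrm.of_comm (fun F => cm X F S hw) fun F => cm X' F S hw,
        Nrm.of_comm (fun F => cm X F _ (hp.Wadj S hw)) fun F => cm X' F _ (hp.Wadj S hw)⟩
    · have e : ∀ γ : Γ, Nrm (fun F => E X F) (fun F => E X' F) (lam γ) := by
        intro γ
        obtain ⟨σ, hσ⟩ := hlam γ⁻¹
        refine nrm_cov' (hl1 γ) ?_ (fun F => hσ X F) fun F => hσ X' F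
        have := hl1 γ⁻¹
        rwa [inv_inv] at this
      refine ⟨e γ, ?_⟩
      rw [hp.adjL]
      exact e γ⁻¹
    · have e : ∀ g : G, g • X = X → g • X' = X' →
          Nrm (fun F => E X F) (fun F => E X' F) (π g) := by
        intro g h4 h5
        refine Nrm.of_comm (fun F => ?_) fun F => ?_
        · have := pcov g X F
          rw [h4] at this
          exact this.symm
        · have := pcov g X' F
          rw [h5] at this
          exact this.symm
      refine ⟨e g hg1 hg2, ?_⟩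
      rw [hp.adjP]
      refine e g⁻¹ ?_ ?_
      · rw [inv_smul_eq_iff, hg1]
      · rw [inv_smul_eq_iff, hg2]

variable [CompactSpace Y]

/-- Two members of a covariant family are different, if their stabilisers generate the group and
if there is no invariant state on the target space. -/
theorem ne_of_gen (hp : RC.Pic π lam W Ω) (cm : ∀ X f, Cm W (E X f)) {act : Γ → Y → Y}
    (hNI : NIS act)
    (cov : ∀ γ X, ∀ f f' : C(Y, ℂ), (∀ x, f' (act γ x) = f x) → lam γ * E X f * lam γ⁻¹ = E X f')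
    (pcov : ∀ g X f, π g * E X f = E (g • X) f * π g) {X X' : I}
    (hgen : Subgroup.closure ({g : G | g • X = X} ∪ {g : G | g • X' = X'}) = ⊤)
    (he : ∀ f, E X f = E X' f) : False := by
  have key : ∀ g : G, ∀ f, E X f * π g = π g * E X f := by
    intro g
    have hg : g ∈ Subgroup.closure ({g : G | g • X = X} ∪ {g : G | g • X' = X'}) := by
      rw [hgen]
      exact Subgroup.mem_top g
    induction hg using Subgroup.closure_induction with
    | mem x hx =>
      intro f
      rcases hx with hx | hx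
      · have := pcov x X f
        rw [show x • X = X from hx] at this
        exact this.symm
      · have := pcov x X' f
        rw [show x • X' = X' from hx, ← he f] at this
        exact this.symm
    | one =>
      intro f
      rw [map_one, mul_one, one_mul]
    | mul x y _ _ h1 h2 =>
      intro f
      rw [map_mul, ← mul_assoc, h1 f, mul_assoc, h2 f, mul_assoc]
    | inv x _ h1 =>
      intro f
      have e1 : π x * π x⁻¹ = 1 := by rw [← map_mul, mul_inv_cancel, map_one]
      have e2 : π x⁻¹ * π x = 1 := by rw [← map_mul, inv_mul_cancel, map_one]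
      calc E X f * π x⁻¹ = (π x⁻¹ * π x) * (E X f * π x⁻¹) := by rw [e2, one_mul]
        _ = π x⁻¹ * (π x * E X f) * π x⁻¹ := by simp only [mul_assoc]
        _ = π x⁻¹ * (E X f * π x) * π x⁻¹ := by rw [h1 f]
        _ = π x⁻¹ * E X f * (π x * π x⁻¹) := by simp only [mul_assoc]
        _ = π x⁻¹ * E X f := by rw [e1, mul_one]
  exact const_false_hom hNI hp.nΩ hp.inv (E X) (fun γ f f' h => cov γ X f f' h)
    (fun f w hw => cm X f w hw) fun f g => key g f

/-- **[N-AGR]**: two different members of a covariant family agree nowhere. -/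
theorem agr_gr (hp : RC.Pic π lam W Ω) (cm : ∀ X f, Cm W (E X f)) {act : Γ → Y → Y}
    (hNI : NIS act) (hact : ∀ γ, ∀ f : C(Y, ℂ), ∃ f' : C(Y, ℂ), ∀ x, f' (act γ x) = f x)
    (cov : ∀ γ X, ∀ f f' : C(Y, ℂ), (∀ x, f' (act γ x) = f x) → lam γ * E X f * lam γ⁻¹ = E X f')
    (pcov : ∀ g X f, π g * E X f = E (g • X) f * π g) {X X' : I}
    (hS : RC.Moore {g : G | g • X = X ∧ g • X' = X'})
    (hgen : Subgroup.closure ({g : G | g • X = X} ∪ {g : G | g • X' = X'}) = ⊤) :
    ∀ ζ, (∀ f, E X f ζ = E X' f ζ) → ζ = 0 := by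
  have hl1 : ∀ γ, lam γ⁻¹ * lam γ = 1 := fun γ => by rw [← map_mul, inv_mul_cancel, map_one]
  refine (agr_sub hp cm ?_ pcov hS).resolve_left fun he => ne_of_gen hp cm hNI cov pcov hgen he
  intro γ
  choose σ hσ using hact γ
  refine ⟨σ, fun X f => ?_⟩
  rw [← cov γ X f (σ f) (hσ f), mul_assoc, hl1, mul_one]

/-- **[N-AGR]**, for a target group `T` acting on the compact space `Y`, `q : Γ →* T`. -/
theorem agr_act {T : Type*} [Group T] [MulAction T Y] [ContinuousConstSMul T Y] (q : Γ →* T)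
    (hp : RC.Pic π lam W Ω) (cm : ∀ X f, Cm W (E X f))
    (hNI : NIS fun (γ : Γ) (y : Y) => q γ • y)
    (cov : ∀ γ X, ∀ f f' : C(Y, ℂ), (∀ y, f' (q γ • y) = f y) → lam γ * E X f * lam γ⁻¹ = E X f')
    (pcov : ∀ g X f, π g * E X f = E (g • X) f * π g) {X X' : I}
    (hS : RC.Moore {g : G | g • X = X ∧ g • X' = X'})
    (hgen : Subgroup.closure ({g : G | g • X = X} ∪ {g : G | g • X' = X'}) = ⊤) :
    ∀ ζ, (∀ f, E X f ζ = E X' f ζ) → ζ = 0 := by
  refine agr_gr hp cm hNI (fun γ f => ?_) cov pcov hS hgen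
  refine ⟨⟨fun y => f ((q γ)⁻¹ • y), f.continuous.comp (continuous_const_smul _)⟩, fun y => ?_⟩
  change f ((q γ)⁻¹ • q γ • y) = f y
  rw [inv_smul_smul]

end fam

end pic

end Vale.Agent.P092.H411
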