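import Vale.Agent.P092.H218.NRes

/-!
P092 (helper411), Team N, block [N-GAPB] (3a): the residual masses with a slow cut-off
`s ↦ lim_U mass (z N * σ s) (χ N * F)`, where `σ s` commutes with all `z N`, are again data of the
sharp rank theorem. Consequence: the residual chain.
-/

set_option linter.all false

open Filter Topology

namespace Vale.Agent.P092.H411.ResX

open Vale.Agent.P092.H200 Vale.Agent.P092.H538 Vale.Agent.P092.H553 Vale.Agent.P092.H761
open Vale.Agent.P092.H515 Vale.Agent.P092.H218.NR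

section res

variable {Γ 𝔾 S : Type} [Group Γ] [DecidableEq Γ] [Group 𝔾] [Group S] {t : ℝ}
  {mass : 𝔾 → (Γ → ℝ) → ℝ} {Cpt : Set 𝔾 → Prop} {Ping : (p : ℕ) → (Fin p → 𝔾) → Prop}

/-- The residual mass with cut-off. -/
noncomputable def mr (mass : 𝔾 → (Γ → ℝ) → ℝ) (U : Ultrafilter ℕ) (z : ℕ → 𝔾)
    (χ : ℕ → Γ → ℝ) (σ : S →* 𝔾) (s : S) (F : Γ → ℝ) : ℝ :=
  ul U fun N => mass (z N * σ s) fun g => χ N g * F g

/-- Slow cut-off functions. -/
structure Cut (U : Ultrafilter ℕ) (χ : ℕ → Γ → ℝ) : Prop where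
  mem : ∀ N g, 0 ≤ χ N g ∧ χ N g ≤ 1
  slow : ∀ a b : Γ, Usm U (fun N g => χ N (a * g * b) - χ N g)

variable {U : Ultrafilter ℕ} {z : ℕ → 𝔾} {χ : ℕ → Γ → ℝ} {σ : S →* 𝔾}

theorem Cut.abs_le_one (hχ : Cut U χ) (N : ℕ) (g : Γ) : |χ N g| ≤ 1 := by
  rw [abs_of_nonneg (hχ.mem N g).1]
  exact (hχ.mem N g).2

theorem Cut.mul_le (hχ : Cut U χ) (N : ℕ) (g : Γ) {F : Γ → ℝ} {C : ℝ} (hF : ∀ g, |F g| ≤ C) :
    |χ N g * F g| ≤ C := by
  rw [abs_mul]
  exact (mul_le_of_le_one_left (abs_nonneg _) (hχ.abs_le_one N g)).trans (hF g)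

theorem Cut.right (hχ : Cut U χ) (u : Γ) : Usm U (fun N g => χ N (g * u) - χ N g) := by
  have := hχ.slow 1 u
  simpa using this

theorem mr_bd (h : SharpData t mass Cpt Ping) (hχ : Cut U χ) (s : S) {F : Γ → ℝ} {C : ℝ}
    (hF : ∀ g, |F g| ≤ C) (N : ℕ) : |mass (z N * σ s) fun g => χ N g * F g| ≤ C * t :=
  mass_abs h _ fun g => hχ.mul_le N g hF

/-- The defining property of the residual mass. -/
theorem tendsto_mr (h : SharpData t mass Cpt Ping) (hχ : Cut U χ) (z : ℕ → 𝔾) (σ : S →* 𝔾)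
    (s : S) {F : Γ → ℝ} {C : ℝ} (hF : ∀ g, |F g| ≤ C) :
    Tendsto (fun N => mass (z N * σ s) fun g => χ N g * F g) U (𝓝 (mr mass U z χ σ s F)) :=
  tendsto_ul (mr_bd h hχ s hF)

/-- The total residual mass does not depend on `s`. -/
theorem tendsto_one (h : SharpData t mass Cpt Ping) (hχ : Cut U χ)
    (hσ : ∀ N s, z N * σ s = σ s * z N) {μ : ℝ}
    (hlim : Tendsto (fun N => mass (z N) (χ N)) U (𝓝 μ)) (s : S) :
    Tendsto (fun N => mass (z N * σ s) (χ N)) U (𝓝 μ) := by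
  have h1 := h.inv U z (σ s) (fun N => hσ N s) χ hχ.mem hχ.right
  have h2 := h1.add hlim
  rw [zero_add] at h2
  refine h2.congr fun N => ?_
  ring

/-- **The residual masses with cut-off are data of the sharp rank theorem.** -/
theorem resX (h : SharpData t mass Cpt Ping) (hχ : Cut U χ)
    (hσ : ∀ N s, z N * σ s = σ s * z N) {μ : ℝ} (hμ : 0 < μ)
    (hlim : Tendsto (fun N => mass (z N) (χ N)) U (𝓝 μ)) :
    SharpData μ (mr mass U z χ σ) (fun 𝒦 => Cpt (σ '' 𝒦)) (fun p u => Ping p fun l => σ (u l)) where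
  pos := hμ
  one := fun s => by
    have h1 := tendsto_one h hχ hσ hlim s
    refine ul_eq (h1.congr fun N => ?_)
    simp only [mul_one]
  mono := fun s F F' C hF hF' hFF => by
    refine ul_le (mr_bd h hχ s hF) (mr_bd h hχ s hF') (Eventually.of_forall fun N => ?_)
    exact h.mono _ _ _ C (fun g => hχ.mul_le N g hF) (fun g => hχ.mul_le N g hF') fun g =>
      mul_le_mul_of_nonneg_left (hFF g) (hχ.mem N g).1
  add := fun s F F' C hF hF' => by
    have h1 := (tendsto_mr h hχ z σ s hF).add (tendsto_mr h hχ z σ s hF')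
    refine ul_eq (h1.congr fun N => ?_)
    rw [← h.add _ _ _ C (fun g => hχ.mul_le N g hF) fun g => hχ.mul_le N g hF']
    congr 1
    funext g
    ring
  smul := fun s F C c hF => by
    have h1 := (tendsto_mr h hχ z σ s hF).const_mul c
    refine ul_eq (h1.congr fun N => ?_)
    rw [← h.smul _ _ C c fun g => hχ.mul_le N g hF]
    congr 1
    funext g
    ring
  inv := by
    intro V y v hyv χ' hχ' hslow
    obtain ⟨z', hz'⟩ : ∃ z' : ℕ → 𝔾, ∀ k N, z' (Nat.pair k N) = z N * σ (y k) :=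
      ⟨fun n => z n.unpair.2 * σ (y n.unpair.1), fun k N => by simp only [Nat.unpair_pair]⟩
    obtain ⟨χ'', hχ''⟩ : ∃ χ'' : ℕ → Γ → ℝ, (∀ k N g, χ'' (Nat.pair k N) g = χ N g * χ' k g) ∧
        ∀ n g, 0 ≤ χ'' n g ∧ χ'' n g ≤ 1 :=
      ⟨fun n g => χ n.unpair.2 g * χ' n.unpair.1 g, fun k N g => by simp only [Nat.unpair_pair],
        fun n g => ⟨mul_nonneg (hχ.mem _ _).1 (hχ' _ _).1,
          mul_le_one₀ (hχ.mem _ _).2 (hχ' _ _).1 (hχ' _ _).2⟩⟩
    have hz'v : ∀ n, z' n * σ v = σ v * z' n := by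
      intro n
      obtain ⟨k, N, rfl⟩ : ∃ k N, n = Nat.pair k N := ⟨_, _, (Nat.pair_unpair n).symm⟩
      rw [hz', mul_assoc, ← map_mul, hyv k, map_mul, ← mul_assoc, hσ N v, mul_assoc]
    have hsl : ∀ u : Γ, Usm (pr V U) (fun n g => χ'' n (g * u) - χ'' n g) := by
      intro u δ hδ
      rw [eventually_pr]
      filter_upwards [hslow u (δ / 2) (half_pos hδ)] with k hk
      filter_upwards [hχ.right u (δ / 2) (half_pos hδ)] with N hN g
      rw [hχ''.1, hχ''.1]
      have e : χ N (g * u) * χ' k (g * u) - χ N g * χ' k g =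
          (χ N (g * u) - χ N g) * χ' k (g * u) + χ N g * (χ' k (g * u) - χ' k g) := by ring
      rw [e]
      have h1 : |(χ N (g * u) - χ N g) * χ' k (g * u)| ≤ δ / 2 := by
        rw [abs_mul]
        refine (mul_le_of_le_one_right (abs_nonneg _) ?_).trans (hN g)
        rw [abs_of_nonneg (hχ' _ _).1]
        exact (hχ' _ _).2
      have h2 : |χ N g * (χ' k (g * u) - χ' k g)| ≤ δ / 2 := by
        rw [abs_mul]
        exact (mul_le_of_le_one_left (abs_nonneg _) (hχ.abs_le_one _ _)).trans (hk g)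
      linarith [abs_add_le ((χ N (g * u) - χ N g) * χ' k (g * u))
        (χ N g * (χ' k (g * u) - χ' k g))]
    have hmain := h.inv (pr V U) z' (σ v) hz'v χ'' hχ''.2 hsl
    rw [Metric.tendsto_nhds]
    intro δ hδ
    have h1 : ∀ᶠ n in pr V U, |mass (z' n * σ v) (χ'' n) - mass (z' n) (χ'' n)| < δ / 2 := by
      have := Metric.tendsto_nhds.mp hmain (δ / 2) (half_pos hδ)
      filter_upwards [this] with n hn
      rwa [Real.dist_eq, sub_zero] at hn
    rw [eventually_pr] at h1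
    filter_upwards [h1] with k hk
    rw [Real.dist_eq, sub_zero]
    have hb : ∀ g, |χ' k g| ≤ 1 := fun g => by
      rw [abs_of_nonneg (hχ' k g).1]; exact (hχ' k g).2
    have h2 := (tendsto_mr h hχ z σ (y k * v) hb).sub (tendsto_mr h hχ z σ (y k) hb)
    have h3 : |mr mass U z χ σ (y k * v) (χ' k) - mr mass U z χ σ (y k) (χ' k)| ≤ δ / 2 := by
      refine le_of_tendsto h2.abs ?_
      filter_upwards [hk] with N hN
      rw [hz'] at hN
      have e1 : χ'' (Nat.pair k N) = fun g => χ N g * χ' k g := funext fun g => hχ''.1 k N g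
      rw [e1] at hN
      rw [map_mul, ← mul_assoc]
      exact hN.le
    linarith
  unif := by
    intro 𝒦 h𝒦 ε hε
    obtain ⟨F, C, hC, hF⟩ := h.unif (σ '' 𝒦) h𝒦 (ε / 2) (half_pos hε)
    refine ⟨F, C, hC, fun κ hκ κ' hκ' g P => ?_⟩
    obtain ⟨δ, hδ0, hδ⟩ : ∃ δ : ℝ, 0 < δ ∧ C * (δ * t) ≤ ε / 2 := by
      refine ⟨ε / (2 * (C * t + 1)), by have := h.pos; positivity, ?_⟩
      have ht := h.pos
      rw [div_mul_eq_mul_div, mul_div_assoc', div_le_div_iff₀ (by positivity) (by norm_num)]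
      nlinarith [mul_nonneg hC ht.le]
    have hb : ∀ x, |ind (fun x => ∃ a ∈ F, ∃ b ∈ F, P (a * x * b)) x| ≤ 1 := abs_ind_le _
    have hlim1 := tendsto_mr h hχ z σ (κ * g * κ') (F := ind P) (C := 1) (abs_ind_le _)
    have hlim2 := ((tendsto_mr h hχ z σ g hb).const_mul C).add_const ε
    refine le_of_tendsto_of_tendsto hlim1 hlim2 ?_
    have hsl : ∀ᶠ N in U, ∀ a ∈ F, ∀ b ∈ F, ∀ x, |χ N (a * x * b) - χ N x| ≤ δ := by
      have h1 : ∀ a ∈ F, ∀ᶠ N in (U : Filter ℕ), ∀ b ∈ F, ∀ x, |χ N (a * x * b) - χ N x| ≤ δ := by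
        intro a _
        exact (Filter.eventually_all_finset F).2 fun b _ => hχ.slow a b δ hδ0
      exact (Filter.eventually_all_finset F).2 h1
    filter_upwards [hsl] with N hN
    have hw : z N * σ (κ * g * κ') = σ κ * (z N * σ g) * σ κ' := by
      rw [map_mul, map_mul]
      calc z N * (σ κ * σ g * σ κ') = (z N * σ κ) * σ g * σ κ' := by group
        _ = _ := by rw [hσ N κ]; group
    rw [hw]
    have hm : mass (σ κ * (z N * σ g) * σ κ') (fun x => χ N x * ind P x) ≤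
        C * mass (z N * σ g) (fun x => min 1 (χ N x + δ) *
          ind (fun x => ∃ a ∈ F, ∃ b ∈ F, P (a * x * b)) x) + ε / 2 := by
      refine unif_fun h hC (half_pos hε) hF ⟨κ, hκ, rfl⟩ ⟨κ', hκ', rfl⟩ (z N * σ g)
        (fun x => ⟨mul_nonneg (hχ.mem _ _).1 (ind_nonneg _ _),
          mul_le_one₀ (hχ.mem _ _).2 (ind_nonneg _ _) (ind_le_one _ _)⟩)
        (fun x => ⟨mul_nonneg (le_min zero_le_one (add_nonneg (hχ.mem _ _).1 hδ0.le))
          (ind_nonneg _ _), mul_le_one₀ (min_le_left _ _) (ind_nonneg _ _) (ind_le_one _ _)⟩)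
        fun x a ha b hb => ?_
      by_cases hP : P (a * x * b)
      · rw [ind_pos (P := P) hP,
          ind_pos (P := fun x => ∃ a ∈ F, ∃ b ∈ F, P (a * x * b)) ⟨a, ha, b, hb, hP⟩, mul_one,
          mul_one]
        refine le_min (hχ.mem _ _).2 ?_
        have := (abs_le.1 (hN a ha b hb x)).2
        linarith
      · rw [ind_neg (P := P) hP, mul_zero]
        exact mul_nonneg (le_min zero_le_one (add_nonneg (hχ.mem _ _).1 hδ0.le)) (ind_nonneg _ _)
    have hle : mass (z N * σ g) (fun x => min 1 (χ N x + δ) *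
        ind (fun x => ∃ a ∈ F, ∃ b ∈ F, P (a * x * b)) x) ≤
        mass (z N * σ g) (fun x => χ N x * ind (fun x => ∃ a ∈ F, ∃ b ∈ F, P (a * x * b)) x) +
          δ * t := by
      rw [← mass_const h (z N * σ g) δ, ← h.add _ _ _ (1 + δ)
        (fun x => ((hχ.mul_le N x hb).trans (by linarith))) (fun x => by
          rw [abs_of_nonneg hδ0.le]; linarith)]
      refine h.mono _ _ _ (1 + δ) (fun x => ?_) (fun x => ?_) (fun x => ?_)
      · rw [abs_mul]
        have h1 : |min 1 (χ N x + δ)| ≤ 1 := by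
          rw [abs_of_nonneg (le_min zero_le_one (add_nonneg (hχ.mem _ _).1 hδ0.le))]
          exact min_le_left _ _
        have h2 := hb x
        have h3 := mul_le_mul h1 h2 (abs_nonneg _) zero_le_one
        linarith
      · refine (abs_add_le _ _).trans ?_
        rw [abs_of_nonneg hδ0.le]
        have := hχ.mul_le N x hb
        linarith
      · have h1 : min 1 (χ N x + δ) ≤ χ N x + δ := min_le_right _ _
        have h2 : 0 ≤ ind (fun x => ∃ a ∈ F, ∃ b ∈ F, P (a * x * b)) x := ind_nonneg _ _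
        have h3 : ind (fun x => ∃ a ∈ F, ∃ b ∈ F, P (a * x * b)) x ≤ 1 := ind_le_one _ _
        have h4 := mul_le_mul_of_nonneg_right h1 h2
        have h5 := mul_le_mul_of_nonneg_left h3 hδ0.le
        nlinarith
    have h6 := mul_le_mul_of_nonneg_left hle hC
    linarith
  pairF := by
    obtain ⟨A, hA⟩ := h.pairF
    refine ⟨2 * A, fun p u hu V y hyu c hc hfam => ?_⟩
    obtain ⟨z', hz'⟩ : ∃ z' : ℕ → 𝔾, ∀ k N, z' (Nat.pair k N) = z N * σ (y k) :=
      ⟨fun n => z n.unpair.2 * σ (y n.unpair.1), fun k N => by simp only [Nat.unpair_pair]⟩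
    have hz'u : ∀ n l, z' n * σ (u l) = σ (u l) * z' n := by
      intro n l
      obtain ⟨k, N, rfl⟩ : ∃ k N, n = Nat.pair k N := ⟨_, _, (Nat.pair_unpair n).symm⟩
      rw [hz', mul_assoc, ← map_mul, hyu k l, map_mul, ← mul_assoc, hσ N (u l), mul_assoc]
    have key := hA p (fun l => σ (u l)) hu (pr V U) z' hz'u (c / 2) (half_pos hc) fun T ε hε => ?_
    · linarith
    · obtain ⟨B, F, H, hP, hlow⟩ := hfam T ε hε
      refine ⟨B, fun n => F n.unpair.1, fun n => H n.unpair.1, ?_, fun l => ?_⟩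
      · exact
          { nonnegF := fun k b g => hP.nonnegF _ b g
            nonnegH := fun k b g => hP.nonnegH _ b g
            offF := fun k b hb g => hP.offF _ b hb g
            offH := fun k b hb g => hP.offH _ b hb g
            sumF := fun k g => hP.sumF _ g
            sumH := fun k g => hP.sumH _ g
            left := fun s hs => by
              rw [eventually_pr]
              filter_upwards [hP.left s hs] with k hk
              refine Eventually.of_forall fun N => ?_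
              simp only [Nat.unpair_pair]
              exact hk
            right := fun b v δ hδ => by
              rw [eventually_pr]
              filter_upwards [hP.right b v δ hδ] with k hk
              refine Eventually.of_forall fun N => ?_
              simp only [Nat.unpair_pair]
              exact hk }
      · rw [eventually_pr]
        filter_upwards [hlow l] with k hk
        have hFH0 : ∀ g, 0 ≤ ∑ b ∈ B, F k b g * H k b g := fun g =>
          Finset.sum_nonneg fun b _ => mul_nonneg (hP.nonnegF _ _ _) (hP.nonnegH _ _ _)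
        have hFH1 : ∀ g, ∑ b ∈ B, F k b g * H k b g ≤ 1 := fun g => by
          have h5 : ∀ b ∈ B, F k b g * H k b g ≤ 1 / 2 * F k b g ^ 2 + 1 / 2 * H k b g ^ 2 := by
            intro b _
            nlinarith [sq_nonneg (F k b g - H k b g)]
          refine (Finset.sum_le_sum h5).trans ?_
          rw [Finset.sum_add_distrib, ← Finset.mul_sum, ← Finset.mul_sum]
          have := hP.sumF k g
          have := hP.sumH k g
          linarith
        have hb : ∀ g, |∑ b ∈ B, F k b g * H k b g| ≤ 1 := fun g => by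
          rw [abs_of_nonneg (hFH0 g)]; exact hFH1 g
        have h1 := tendsto_mr h hχ z σ (y k * u l) hb
        have h2 : ∀ᶠ N in (U : Filter ℕ), c / 2 < mass (z N * σ (y k * u l))
            fun g => χ N g * ∑ b ∈ B, F k b g * H k b g :=
          h1.eventually (lt_mem_nhds (by linarith))
        filter_upwards [h2] with N hN
        rw [hz']
        simp only [Nat.unpair_pair]
        rw [map_mul, ← mul_assoc] at hN
        refine hN.le.trans (h.mono _ _ _ 1 (fun g => hχ.mul_le N g hb) hb fun g => ?_)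
        exact mul_le_of_le_one_left (hFH0 g) (hχ.mem N g).2

end res

/-! ### The residual chain -/

section chain

variable {Γ 𝔾 S J : Type} [Group Γ] [DecidableEq Γ] [Group 𝔾] [Group S] [Fintype J]
  [DecidableEq J] {t : ℝ} {mass : 𝔾 → (Γ → ℝ) → ℝ} {Cpt : Set 𝔾 → Prop}
  {Ping : (p : ℕ) → (Fin p → 𝔾) → Prop} {U : Ultrafilter ℕ} {z : ℕ → 𝔾} {χ : ℕ → Γ → ℝ}
  {σ : S →* 𝔾} {r : ℕ} {gap : J → Γ → ℝ} {cl : J → Fin r} {m : ℕ} {b : Fin m → ℕ → S}
  {𝒦 : Fin m → Set S}

/-- The start of the residual chain. -/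
theorem res_start (h : SharpData t mass Cpt Ping) (hχ : Cut U χ)
    (hσ : ∀ N s, z N * σ s = σ s * z N) {μ : ℝ} (hμ : 0 < μ)
    (hlim : Tendsto (fun N => mass (z N) (χ N)) U (𝓝 μ)) (i₀ : J)
    (hstart : ∀ R : ℝ, ∀ᶠ N in U, ∀ g, χ N g ≠ 0 → R ≤ gap i₀ g) :
    TTn (mr mass U z χ σ) gap cl b 0 1 := by
  refine ⟨μ, {cl i₀}, hμ, by simp, fun R => ⟨1, HS.one, ?_⟩⟩
  have h1 := tendsto_one h hχ hσ hlim (1 : S)
  have e : mr mass U z χ σ 1 (ind fun g => {cl i₀} ⊆ big gap cl R g) = μ := by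
    refine ul_eq (h1.congr' ?_)
    filter_upwards [hstart R] with N hN
    congr 1
    funext g
    by_cases h0 : χ N g = 0
    · rw [h0, zero_mul]
    · rw [ind_pos (P := fun g => {cl i₀} ⊆ big gap cl R g), mul_one]
      rw [Finset.singleton_subset_iff]
      exact mem_big.mpr ⟨i₀, rfl, hN g h0⟩
  rw [e]

/-- **The residual chain.** -/
theorem res_all (h : SharpData t mass Cpt Ping) (hg : Gaps gap cl)
    (hgeo : ∀ θ : Finset J, θ.Nonempty → (∀ i ∈ θ, ∀ j, cl i = cl j → j ∈ θ) → Geo gap θ)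
    (hχ : Cut U χ) (hσ : ∀ N s, z N * σ s = σ s * z N) {μ : ℝ} (hμ : 0 < μ)
    (hlim : Tendsto (fun N => mass (z N) (χ N)) U (𝓝 μ)) (i₀ : J)
    (hstart : ∀ R : ℝ, ∀ᶠ N in U, ∀ g, χ N g ≠ 0 → R ≤ gap i₀ g)
    (hch : GChain (fun 𝒦 => Cpt (σ '' 𝒦)) (fun p u => Ping p fun l => σ (u l)) m b 𝒦)
    (hr : r ≤ m + 1) :
    ∃ c : ℝ, 0 < c ∧ ∀ R : ℝ, ∃ s : S, HS b m s ∧
      c ≤ mr mass U z χ σ s (ind fun g => ∀ x : Fin r, x ∈ big gap cl R g) := by
  have hX := resX h hχ hσ hμ hlim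
  have hTT : ∀ i, i ≤ m → TTn (mr mass U z χ σ) gap cl b i (1 + i) := by
    intro i
    induction i with
    | zero => intro _; exact res_start h hχ hσ hμ hlim i₀ hstart
    | succ i ih =>
      intro hi
      exact ttn_step hX hg hgeo hch hi (ih (by omega))
  obtain ⟨c, Θ, hc, hΘ, hT⟩ := hTT m le_rfl
  have hΘ' : Θ = Finset.univ := by
    refine Finset.eq_univ_of_card Θ ?_
    have h3 : Θ.card ≤ r := by simpa using Finset.card_le_univ Θ
    rw [Fintype.card_fin]
    omega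
  refine ⟨c, hc, fun R => ?_⟩
  obtain ⟨s, hs, hm⟩ := hT R
  refine ⟨s, hs, hm.trans (hX.ind_mono s fun g hg' x => hg' ?_)⟩
  rw [hΘ']
  exact Finset.mem_univ x

/-- The residual mass where all gaps are large is small on compact sets (of the class `Cpt`). -/
theorem res_esc (h : SharpData t mass Cpt Ping) (hg : Gaps gap cl) (hχ : Cut U χ)
    (hσ : ∀ N s, z N * σ s = σ s * z N) {μ : ℝ} (hμ : 0 < μ)
    (hlim : Tendsto (fun N => mass (z N) (χ N)) U (𝓝 μ))
    (hone : ∀ ε : ℝ, 0 < ε → ∃ R : ℝ, ∀ᶠ N in U,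
      mass (z N) (ind fun g => ∀ x : Fin r, x ∈ big gap cl R g) ≤ ε)
    {K : Set S} (hK : Cpt (σ '' K)) (h1K : (1 : S) ∈ K) {ε : ℝ} (hε : 0 < ε) :
    ∃ R : ℝ, ∀ s ∈ K, mr mass U z χ σ s (ind fun g => ∀ x : Fin r, x ∈ big gap cl R g) ≤ ε := by
  have hX := resX h hχ hσ hμ hlim
  obtain ⟨F, C, hC, hF⟩ := hX.unif K hK (ε / 2) (half_pos hε)
  obtain ⟨δ, hδ0, hδ⟩ : ∃ δ : ℝ, 0 < δ ∧ C * δ ≤ ε / 2 := by
    refine ⟨ε / (2 * (C + 1)), by positivity, ?_⟩
    rw [mul_div_assoc', div_le_div_iff₀ (by positivity) (by norm_num)]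
    nlinarith
  obtain ⟨R, hR⟩ := hone δ hδ0
  choose Cq hCq using hg.quasi
  obtain ⟨CF, hCF⟩ : ∃ CF : ℝ, ∀ a ∈ F, ∀ b ∈ F, Cq a b ≤ CF := by
    refine ⟨∑ a ∈ F, ∑ b ∈ F, |Cq a b|, fun a ha b hb => (le_abs_self _).trans ?_⟩
    refine le_trans ?_ (Finset.single_le_sum (f := fun a => ∑ b ∈ F, |Cq a b|)
      (fun a _ => Finset.sum_nonneg fun b _ => abs_nonneg _) ha)
    exact Finset.single_le_sum (f := fun b => |Cq a b|) (fun b _ => abs_nonneg _) hb
  refine ⟨R + CF, fun s hs => ?_⟩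
  have h2 := hF s hs 1 h1K 1 (fun g => ∀ x : Fin r, x ∈ big gap cl (R + CF) g)
  rw [mul_one, mul_one] at h2
  have h3 : mr mass U z χ σ 1 (ind fun x => ∃ a ∈ F, ∃ b ∈ F,
      ∀ y : Fin r, y ∈ big gap cl (R + CF) (a * x * b)) ≤ δ := by
    refine (hX.ind_mono (1 : S) (Q := fun g => ∀ y : Fin r, y ∈ big gap cl R g) ?_).trans ?_
    · rintro g ⟨a, ha, b', hb', hab⟩ y
      obtain ⟨i, hi1, hi2⟩ := mem_big.mp (hab y)
      refine mem_big.mpr ⟨i, hi1, ?_⟩
      have h3 := (abs_le.mp (hCq a b' i g)).2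
      have h4 := hCF a ha b' hb'
      linarith
    · refine le_of_tendsto (tendsto_mr h hχ z σ 1 (abs_ind_le _)) ?_
      filter_upwards [hR] with N hN
      refine (h.mono _ _ _ 1 (fun g => hχ.mul_le N g (abs_ind_le _)) (fun g => abs_ind_le _ g)
        fun g => mul_le_of_le_one_left (ind_nonneg _ g) (hχ.mem N g).2).trans ?_
      rw [map_one, mul_one]
      exact hN
  have h4 := mul_le_mul_of_nonneg_left h3 hC
  linarith

/-- The tail of a chain, inside a group `S` which contains it. -/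
theorem gchain_tail {b₀ : Fin (m + 1) → ℕ → 𝔾} {𝒦₀ : Fin (m + 1) → Set 𝔾}
    (hch : GChain Cpt Ping (m + 1) b₀ 𝒦₀) (hinj : Function.Injective σ)
    (hb : ∀ j M, σ (b j M) = b₀ j.succ M) (hK : ∀ j, σ '' 𝒦 j = 𝒦₀ j.succ) :
    GChain (fun 𝒦 => Cpt (σ '' 𝒦)) (fun p u => Ping p fun l => σ (u l)) m b 𝒦 where
  cpt := fun j => by rw [hK]; exact hch.cpt _
  comm_b := fun i j hij N M => hinj (by
    rw [map_mul, map_mul, hb, hb]
    exact hch.comm_b _ _ (Fin.succ_lt_succ_iff.2 hij) N M)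
  comm_K := fun i j hij N κ hκ => hinj (by
    rw [map_mul, map_mul, hb]
    exact hch.comm_K _ _ (Fin.succ_lt_succ_iff.2 hij) N _ (by rw [← hK]; exact ⟨κ, hκ, rfl⟩))
  ping := fun j p => by
    obtain ⟨N, κ, κ', h1, h2, h3⟩ := hch.ping j.succ p
    have h1' : ∀ l, ∃ x ∈ 𝒦 j, σ x = κ l := fun l => by
      have := h1 l
      rw [← hK] at this
      exact this
    have h2' : ∀ l, ∃ x ∈ 𝒦 j, σ x = κ' l := fun l => by
      have := h2 l
      rw [← hK] at this
      exact this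
    choose x hx hx' using h1'
    choose y hy hy' using h2'
    refine ⟨N, x, y, hx, hy, ?_⟩
    have e : (fun l => σ (x l * b j N * y l)) = fun l => κ l * b₀ j.succ N * κ' l := by
      funext l
      rw [map_mul, map_mul, hb, hx', hy']
    change Ping p (fun l => σ (x l * b j N * y l))
    rw [e]
    exact h3

end chain

end Vale.Agent.P092.H411.ResX
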