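import Vale.Agent.P092.H701.SLn

/-!
P092 (helper411), Team N, block [N-GAPB] [GB-INST]: the lower block `SL_n(k) → SL_(n+1)(k)`.
-/

set_option linter.all false

open Filter Topology Matrix

namespace Vale.Agent.P092.H411.Blk

open Vale.Agent.P092.H701

section bm

variable {R : Type*} [CommRing R] {n : ℕ}

/-- The matrix with blocks `1` and `A`. -/
def bm (A : Matrix (Fin n) (Fin n) R) : Matrix (Fin (n + 1)) (Fin (n + 1)) R :=
  Matrix.of fun i j => (Fin.cons (Fin.cons 1 (fun _ => 0) : Fin (n + 1) → R)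
    (fun i => (Fin.cons 0 (A i) : Fin (n + 1) → R)) : Fin (n + 1) → Fin (n + 1) → R) i j

theorem bm_zz (A : Matrix (Fin n) (Fin n) R) : bm A 0 0 = 1 := rfl

theorem bm_zs (A : Matrix (Fin n) (Fin n) R) (j : Fin n) : bm A 0 j.succ = 0 := rfl

theorem bm_sz (A : Matrix (Fin n) (Fin n) R) (i : Fin n) : bm A i.succ 0 = 0 := rfl

theorem bm_ss (A : Matrix (Fin n) (Fin n) R) (i j : Fin n) : bm A i.succ j.succ = A i j := rfl

theorem bm_mul (A B : Matrix (Fin n) (Fin n) R) : bm (A * B) = bm A * bm B := by
  ext i j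
  rw [Matrix.mul_apply, Fin.sum_univ_succ]
  refine Fin.cases ?_ (fun i => ?_) i <;> refine Fin.cases ?_ (fun j => ?_) j
  · simp only [bm_zz, bm_zs, zero_mul, Finset.sum_const_zero, add_zero, mul_one]
  · simp only [bm_zz, bm_zs, zero_mul, Finset.sum_const_zero, add_zero, mul_zero]
  · simp only [bm_sz, bm_zz, bm_ss, zero_mul, mul_zero, Finset.sum_const_zero, add_zero]
  · simp only [bm_sz, bm_zs, bm_ss, zero_mul, zero_add, Matrix.mul_apply]

theorem bm_one : bm (1 : Matrix (Fin n) (Fin n) R) = 1 := by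
  ext i j
  refine Fin.cases ?_ (fun i => ?_) i <;> refine Fin.cases ?_ (fun j => ?_) j
  · rw [bm_zz, one_apply_eq]
  · rw [bm_zs, one_apply_ne (Fin.succ_ne_zero j).symm]
  · rw [bm_sz, one_apply_ne (Fin.succ_ne_zero i)]
  · rw [bm_ss]
    by_cases h : i = j
    · rw [h, one_apply_eq, one_apply_eq]
    · rw [one_apply_ne h, one_apply_ne fun h' => h (Fin.succ_injective _ h')]

theorem det_bm (A : Matrix (Fin n) (Fin n) R) : (bm A).det = A.det := by
  rw [Matrix.det_succ_row_zero, Fin.sum_univ_succ]
  simp only [bm_zz, bm_zs, mul_zero, zero_mul, Finset.sum_const_zero, add_zero, Fin.val_zero,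
    pow_zero, one_mul, mul_one]
  congr 1

theorem bm_inj {A B : Matrix (Fin n) (Fin n) R} (h : bm A = bm B) : A = B := by
  ext i j
  rw [← bm_ss A, ← bm_ss B, h]

theorem bm_diagonal (d : Fin n → R) :
    bm (diagonal d) = diagonal (Fin.cons 1 d : Fin (n + 1) → R) := by
  ext i j
  refine Fin.cases ?_ (fun i => ?_) i <;> refine Fin.cases ?_ (fun j => ?_) j
  · rw [bm_zz, diagonal_apply_eq]; rfl
  · rw [bm_zs, diagonal_apply_ne _ (Fin.succ_ne_zero j).symm]
  · rw [bm_sz, diagonal_apply_ne _ (Fin.succ_ne_zero i)]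
  · rw [bm_ss]
    by_cases h : i = j
    · rw [h, diagonal_apply_eq, diagonal_apply_eq]; rfl
    · rw [diagonal_apply_ne _ h, diagonal_apply_ne _ fun h' => h (Fin.succ_injective _ h')]

theorem bm_transvection (a b : Fin n) (t : R) :
    bm (transvection a b t) = transvection a.succ b.succ t := by
  ext i j
  simp only [transvection, Matrix.add_apply]
  refine Fin.cases ?_ (fun i => ?_) i <;> refine Fin.cases ?_ (fun j => ?_) j
  · rw [bm_zz, one_apply_eq, Matrix.single_apply_of_row_ne (Fin.succ_ne_zero a), add_zero]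
  · rw [bm_zs, one_apply_ne (Fin.succ_ne_zero j).symm,
      Matrix.single_apply_of_row_ne (Fin.succ_ne_zero a), add_zero]
  · rw [bm_sz, one_apply_ne (Fin.succ_ne_zero i), Matrix.single_apply, zero_add, if_neg]
    rintro ⟨-, h⟩
    exact Fin.succ_ne_zero b h
  · rw [bm_ss, Matrix.add_apply, Matrix.single_apply, Matrix.single_apply]
    have e1 : (1 : Matrix (Fin (n + 1)) (Fin (n + 1)) R) i.succ j.succ =
        (1 : Matrix (Fin n) (Fin n) R) i j := by
      by_cases h : i = j
      · rw [h, one_apply_eq, one_apply_eq]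
      · rw [one_apply_ne h, one_apply_ne fun h' => h (Fin.succ_injective _ h')]
    rw [e1]
    congr 1
    by_cases h : a = i ∧ b = j
    · rw [if_pos h, if_pos ⟨congrArg _ h.1, congrArg _ h.2⟩]
    · rw [if_neg h, if_neg fun h' => h ⟨Fin.succ_injective _ h'.1, Fin.succ_injective _ h'.2⟩]

end bm

section blk

variable {k : Type*} [NontriviallyNormedField k] {n : ℕ}

/-- The lower block. -/
def blk (k : Type*) [NontriviallyNormedField k] (n : ℕ) :
    SpecialLinearGroup (Fin n) k →* SpecialLinearGroup (Fin (n + 1)) k where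
  toFun g := ⟨bm g.1, by rw [det_bm]; exact g.2⟩
  map_one' := Subtype.ext bm_one
  map_mul' g h := Subtype.ext (bm_mul g.1 h.1)

theorem blk_coe (g : SpecialLinearGroup (Fin n) k) : (blk k n g).1 = bm g.1 := rfl

theorem blk_injective : Function.Injective (blk k n) := fun g h hgh =>
  Subtype.ext (bm_inj (congrArg Subtype.val hgh))

theorem continuous_blk : Continuous (blk k n) := by
  refine Continuous.subtype_mk ?_ _
  refine continuous_matrix fun i j => ?_
  refine Fin.cases ?_ (fun i => ?_) i <;> refine Fin.cases ?_ (fun j => ?_) j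
  · exact continuous_const
  · exact continuous_const
  · exact continuous_const
  · have h : Continuous fun g : SpecialLinearGroup (Fin n) k => g.1 := continuous_subtype_val
    exact h.matrix_elem i j

theorem blk_elem {a b : Fin n} (h : a ≠ b) (t : k) :
    blk k n (elem h t) = elem (fun h' => h (Fin.succ_injective _ h') : a.succ ≠ b.succ) t :=
  Subtype.ext (bm_transvection a b t)

theorem blk_tor {w : k} (hw : w ≠ 0) (j : Fin (n + 1)) :
    blk k (n + 1) (tor n hw j) = tor (n + 1) hw j.succ := by
  apply Subtype.ext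
  rw [blk_coe]
  change bm (diagonal (dg n w j)) = diagonal (dg (n + 1) w j.succ)
  rw [bm_diagonal]
  congr 1
  funext i
  refine Fin.cases ?_ (fun i => ?_) i
  · change (1 : k) = dg (n + 1) w j.succ 0
    rw [dg, if_neg (Fin.succ_ne_zero j).symm, if_neg (Fin.not_lt_zero _), mul_one]
  · change dg n w j i = dg (n + 1) w j.succ i.succ
    unfold dg
    congr 1
    · by_cases h : i = j
      · rw [if_pos h, if_pos (congrArg Fin.succ h), Fin.val_succ]
        congr 1
        omega
      · rw [if_neg h, if_neg fun h' => h (Fin.succ_injective _ h')]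
    · by_cases h : j < i
      · rw [if_pos h, if_pos (Fin.succ_lt_succ_iff.2 h)]
      · rw [if_neg h, if_neg fun h' => h (Fin.succ_lt_succ_iff.1 h')]

/-- The wall element commutes with the block. -/
theorem tor_blk {w : k} (hw : w ≠ 0) (g : SpecialLinearGroup (Fin n) k) :
    Commute (tor n hw 0) (blk k n g) := by
  apply Subtype.ext
  change diagonal (dg n w 0) * bm g.1 = bm g.1 * diagonal (dg n w 0)
  ext i j
  rw [diagonal_mul, mul_diagonal]
  refine Fin.cases ?_ (fun i => ?_) i <;> refine Fin.cases ?_ (fun j => ?_) j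
  · rw [mul_comm]
  · rw [bm_zs, mul_zero, zero_mul]
  · rw [bm_sz, mul_zero, zero_mul]
  · rw [dg_gt n w (Fin.succ_pos i), dg_gt n w (Fin.succ_pos j), mul_comm]

theorem blk_K {a b : Fin n} (h : a ≠ b) :
    blk k n '' (slRow (k := k) h).K =
      (slRow (k := k) (fun h' => h (Fin.succ_injective _ h') : a.succ ≠ b.succ)).K := by
  rw [RowPair.K, RowPair.K, Set.image_union, Set.image_image, Set.image_image]
  congr 1
  · refine Set.image_congr fun t _ => blk_elem h t
  · refine Set.image_congr fun t _ => blk_elem h.symm t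

end blk

end Vale.Agent.P092.H411.Blk
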