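import Vale.Agent.P092.H776.NG5
import Vale.Agent.P092.H411.Blk
import Vale.Agent.P092.SN.Defs

/-!
P092 (helper411), Team N, block [N-GAPB] [GB-INST] (D): the chains of `E` which start with
`ι (bw w)` or its inverse, and their tails in the lower block `SL_N(k)` of `SL_(N+1)(k)`.
-/

set_option linter.all false

open Filter Topology Matrix

namespace Vale.Agent.P092.H411.ChS

open Vale.Agent.P092.H701 Vale.Agent.P092.H776.NE Vale.Agent.P092.H411.Blk
open Vale.Agent.P092.RC (GG PG)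
open Vale.Agent.P092.H35 (sp sp_one_iff)
open Vale.Agent.P092.SN (bw)
open Vale.Agent.P092.H761 (GChain)
open Vale.Agent.P092.H261 (PingT)

section fch

variable {k : Type} [NontriviallyNormedField k] {n r : ℕ} {E : Type} [Group E]
  [TopologicalSpace E] [MeasurableSpace E] [BorelSpace E]
  {ι : SpecialLinearGroup (Fin n) k →* E} {a : E →* PG k n}

/-- The chain of `E` obtained from a chain of one factor. -/
theorem gchain_fch (hι : Continuous ι) (ha : Continuous a) (hcomp : ∀ g, a (ι g) = sp k n g)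
    (C : FCh k n r) : GChain (fun K : Set E => IsCompact K) (PingT E) r
      (fun j N => ι (C.b j N)) (fun j => ι '' C.K j) where
  cpt := fun j => (C.compact j).image hι
  comm_b := fun i j _ N M => (C.comm i j N M).map ι
  comm_K := by
    rintro i j hij N _ ⟨x, hx, rfl⟩
    exact (C.comm_K i j hij N x hx).map ι
  ping := by
    intro j p
    letI : MeasurableSpace (PG k n) := borel _
    haveI : BorelSpace (PG k n) := ⟨rfl⟩
    obtain ⟨N₀, hN⟩ := C.pp j p
    obtain ⟨κ, κ', Bm, Bp, h1, h2, h3, h4, h5, h6, h7⟩ := hN N₀ le_rfl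
    refine ⟨N₀, fun l => ι (κ l), fun l => ι (κ' l), fun l => ⟨_, h1 l, rfl⟩,
      fun l => ⟨_, h2 l, rfl⟩, fun l => a ⁻¹' Bm l, fun l => a ⁻¹' Bp l,
      fun l => ha.measurable (h3 l), fun l => ha.measurable (h4 l),
      fun l l' hl => (h5 l l' hl).preimage _, fun l l' hl => (h6 l l' hl).preimage _,
      fun l z hz => ?_⟩
    change a (ι (κ l) * ι (C.b j N₀) * ι (κ' l) * z) ∈ Bp l
    rw [← map_mul, ← map_mul, map_mul, hcomp]
    exact h7 l (a z) hz

end fch

section pkg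

variable {k : Type} [NontriviallyNormedField k] {m : ℕ}

/-- The wall element. -/
theorem bw_tor (w : kˣ) :
    (bw w : GG k (m + 1)) = tor (m + 1) (w⁻¹).ne_zero 0 := by
  apply Subtype.ext
  change diagonal _ = diagonal (dg (m + 1) ((w⁻¹ : kˣ) : k) 0)
  congr 1
  funext i
  refine Fin.cases ?_ (fun i => ?_) i
  · rw [if_pos rfl, dg_self, Fin.val_zero, Nat.sub_zero]
  · rw [if_neg (Fin.succ_ne_zero i), dg_gt _ _ (Fin.succ_pos i), ← Units.val_inv_eq_inv_val,
      inv_inv]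

/-- The directions of the chain in the lower block. -/
noncomputable def bS (w : kˣ) (j : Fin m) (M : ℕ) : GG k m := tor m (w⁻¹).ne_zero j.castSucc ^ M

/-- The compact sets of the chain in the lower block. -/
def KS (k : Type) [NontriviallyNormedField k] {m : ℕ} (j : Fin m) : Set (GG k m) :=
  (slRow (k := k) (Fin.castSucc_lt_succ (i := j)).ne).K

theorem blk_bS (w : kˣ) (j : Fin m) (M : ℕ) :
    blk k (m + 1) (bS w j M) = tor (m + 1) (w⁻¹).ne_zero j.succ.castSucc ^ M := by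
  rw [bS, map_pow, blk_tor]
  rfl

theorem blk_KS (j : Fin m) :
    blk k (m + 1) '' KS k j = (slRow (k := k) (Fin.castSucc_lt_succ (i := j.succ)).ne).K := by
  rw [KS, blk_K]

/-- The first direction in the block tends to infinity. -/
theorem bS_tendsto {w : kˣ} (hw : ‖(w : k)‖ < 1) (hm : 0 < m) :
    Tendsto (bS (k := k) w (⟨0, hm⟩ : Fin m)) atTop (cocompact (GG k m)) := by
  have hw1 : 1 < ‖((w⁻¹ : kˣ) : k)‖ := by
    rw [Units.val_inv_eq_inv_val, norm_inv]
    exact (one_lt_inv₀ (norm_pos_iff.2 w.ne_zero)).2 hw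
  have he : ∀ M : ℕ, (bS (k := k) w (⟨0, hm⟩ : Fin m) M).1 0 0 =
      (((w⁻¹ : kˣ) : k) ^ m) ^ M := by
    intro M
    have h1 : (bS (k := k) w (⟨0, hm⟩ : Fin m) M).1 =
        diagonal (fun i => dg m ((w⁻¹ : kˣ) : k) 0 i ^ M) := by
      change (tor m (w⁻¹).ne_zero (Fin.castSucc ⟨0, hm⟩) ^ M).1 = _
      rw [Matrix.SpecialLinearGroup.coe_pow]
      change (diagonal (dg m ((w⁻¹ : kˣ) : k) 0)) ^ M = _
      rw [Matrix.diagonal_pow]
      rfl
    rw [h1, diagonal_apply_eq, dg_self, Fin.val_zero, Nat.sub_zero]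
  have hco : Continuous fun g : GG k m => ‖g.1 0 0‖ := by
    have h : Continuous fun g : GG k m => g.1 := continuous_subtype_val
    exact (h.matrix_elem 0 0).norm
  rw [hasBasis_cocompact.tendsto_right_iff]
  intro K hK
  obtain ⟨R, hR⟩ := (hK.image hco).bddAbove
  obtain ⟨N₀, hN₀⟩ := pow_unbounded_of_one_lt R hw1
  filter_upwards [eventually_ge_atTop N₀] with M hM hmem
  have h1 : ‖(bS (k := k) w (⟨0, hm⟩ : Fin m) M).1 0 0‖ ≤ R := hR ⟨_, hmem, rfl⟩
  rw [he, norm_pow, norm_pow, ← pow_mul] at h1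
  have h2 : ‖((w⁻¹ : kˣ) : k)‖ ^ N₀ ≤ ‖((w⁻¹ : kˣ) : k)‖ ^ (m * M) :=
    pow_le_pow_right₀ hw1.le (hM.trans (Nat.le_mul_of_pos_left M hm))
  linarith

variable {E : Type} [Group E] [TopologicalSpace E] {ι : GG k (m + 1) →* E}
  {a : E →* PG k (m + 2)}

/-- The embedding of the lower block. -/
def sg (ι : GG k (m + 1) →* E) : GG k m →* E := ι.comp (blk k (m + 1))

theorem sg_cont (hι : Continuous ι) : Continuous (sg ι) := hι.comp continuous_blk

theorem sg_inj (hcomp : ∀ g, a (ι g) = sp k (m + 2) g) : Function.Injective (sg ι) := by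
  rw [injective_iff_map_eq_one]
  intro g hg
  have h1 : sp k (m + 2) (blk k (m + 1) g) = 1 := by
    rw [← hcomp]
    have : ι (blk k (m + 1) g) = 1 := hg
    rw [this, map_one]
  obtain ⟨c, hc⟩ := sp_one_iff.1 h1
  have h2 : (1 : k) = c := by
    have h3 := congrFun (congrFun hc 0) 0
    rw [blk_coe, bm_zz, Matrix.smul_apply, one_apply_eq, smul_eq_mul, mul_one] at h3
    exact h3
  refine blk_injective (Subtype.ext ?_)
  rw [hc, ← h2, one_smul, map_one]
  rfl

theorem sg_comm (w : kˣ) (s : GG k m) : Commute (ι (bw w)) (sg ι s) := by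
  rw [bw_tor]
  exact (tor_blk (w⁻¹).ne_zero s).map ι

theorem sg_comm_pow (w : kˣ) (N : ℕ) (s : GG k m) :
    ι (bw w) ^ N * sg ι s = sg ι s * ι (bw w) ^ N := (sg_comm w s).pow_left N

theorem sg_comm_inv_pow (w : kˣ) (N : ℕ) (s : GG k m) :
    (ι (bw w))⁻¹ ^ N * sg ι s = sg ι s * (ι (bw w))⁻¹ ^ N := ((sg_comm w s).inv_left).pow_left N

variable [MeasurableSpace E] [BorelSpace E] [ProperSpace k]

/-- **The chain with first direction `ι (bw w)`.** -/
theorem exists_chain (hι : Continuous ι) (ha : Continuous a)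
    (hcomp : ∀ g, a (ι g) = sp k (m + 2) g) {w : kˣ} (hw : ‖(w : k)‖ < 1) :
    ∃ (b : Fin (m + 1) → ℕ → E) (𝒦 : Fin (m + 1) → Set E),
      GChain (fun K : Set E => IsCompact K) (PingT E) (m + 1) b 𝒦 ∧
      (∀ M, b 0 M = ι (bw w) ^ M) ∧ (∀ j M, sg ι (bS w j M) = b j.succ M) ∧
      ∀ j, sg ι '' KS k j = 𝒦 j.succ := by
  have hw1 : 1 < ‖((w⁻¹ : kˣ) : k)‖ := by
    rw [Units.val_inv_eq_inv_val, norm_inv]
    exact (one_lt_inv₀ (norm_pos_iff.2 w.ne_zero)).2 hw
  refine ⟨_, _, gchain_fch hι ha hcomp (fch (m + 1) hw1 (w⁻¹).ne_zero), fun M => ?_,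
    fun j M => ?_, fun j => ?_⟩
  · rw [fch_b, map_pow, bw_tor]
    rfl
  · change ι (blk k (m + 1) (bS w j M)) = _
    rw [blk_bS, fch_b]
  · change (fun x => ι (blk k (m + 1) x)) '' KS k j = _
    rw [← Set.image_image, blk_KS]
    rfl

/-- **The chain with first direction `(ι (bw w))⁻¹`.** -/
theorem exists_chain_inv (hι : Continuous ι) (ha : Continuous a)
    (hcomp : ∀ g, a (ι g) = sp k (m + 2) g) {w : kˣ} (hw : ‖(w : k)‖ < 1) :
    ∃ (b : Fin (m + 1) → ℕ → E) (𝒦 : Fin (m + 1) → Set E),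
      GChain (fun K : Set E => IsCompact K) (PingT E) (m + 1) b 𝒦 ∧
      (∀ M, b 0 M = (ι (bw w))⁻¹ ^ M) ∧ (∀ j M, sg ι (bS w j M) = b j.succ M) ∧
      ∀ j, sg ι '' KS k j = 𝒦 j.succ := by
  have hw1 : 1 < ‖((w⁻¹ : kˣ) : k)‖ := by
    rw [Units.val_inv_eq_inv_val, norm_inv]
    exact (one_lt_inv₀ (norm_pos_iff.2 w.ne_zero)).2 hw
  have hb : ∀ (j : Fin m) (N : ℕ), (fchInv (m + 1) hw1 (w⁻¹).ne_zero).b j.succ N =
      tor (m + 1) (w⁻¹).ne_zero j.succ.castSucc ^ N := by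
    intro j N
    change (if (j.succ : ℕ) = 0 then (tor (m + 1) (w⁻¹).ne_zero j.succ.castSucc)⁻¹ ^ N else
      tor (m + 1) (w⁻¹).ne_zero j.succ.castSucc ^ N) = _
    rw [if_neg (by rw [Fin.val_succ]; omega)]
  have hK : ∀ j : Fin m, (fchInv (m + 1) hw1 (w⁻¹).ne_zero).K j.succ =
      (slRow (k := k) (Fin.castSucc_lt_succ (i := j.succ)).ne).K := by
    intro j
    change (if (j.succ : ℕ) = 0 then (slRow (k := k) (Fin.castSucc_lt_succ (i := j.succ)).ne').K
      else (slRow (k := k) (Fin.castSucc_lt_succ (i := j.succ)).ne).K) = _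
    rw [if_neg (by rw [Fin.val_succ]; omega)]
  refine ⟨_, _, gchain_fch hι ha hcomp (fchInv (m + 1) hw1 (w⁻¹).ne_zero), fun M => ?_,
    fun j M => ?_, fun j => ?_⟩
  · have h1 := fchInv_b (m + 1) hw1 (w⁻¹).ne_zero (Nat.succ_pos m) M
    have e : (⟨0, Nat.succ_pos m⟩ : Fin (m + 1)) = 0 := rfl
    rw [e] at h1
    rw [h1, map_pow, map_inv, bw_tor]
  · change ι (blk k (m + 1) (bS w j M)) = _
    rw [blk_bS, hb]
  · change (fun x => ι (blk k (m + 1) x)) '' KS k j = _
    rw [← Set.image_image, blk_KS, hK]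

end pkg

end Vale.Agent.P092.H411.ChS
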