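import Vale.Agent.P092.H411.AgrPic
import Vale.Agent.P092.H76.PurA
import Vale.Agent.P092.SD.Defs

/-!
P092 (helper411), Team D, block [D-AGR] in the letters of `SD.Defs`: the fields `EFam.agr`,
`QP.agrE`, `QP.agrF` from covariance, the picture and the absence of invariant states.
-/

set_option linter.all false

open scoped InnerProductSpace LinearAlgebra.Projectivization Matrix
open ContinuousLinearMap Matrix MeasureTheory

namespace Vale.Agent.P092.H411

open Vale.Agent.P092.RC Vale.Agent.P092.SD Vale.Agent.P092.H76.Pur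

section sd

variable {k : Type} [NontriviallyNormedField k] [ProperSpace k] {Γ K : Type} [Group Γ]
  [NormedAddCommGroup K] [InnerProductSpace ℂ K] [CompleteSpace K]
  {π : G3 k →* (K →L[ℂ] K)} {lam : Γ →* (K →L[ℂ] K)} {W : Set (K →L[ℂ] K)} {Ω : K}
  {q : Γ →* G3 k} {E : PP k → (CP k →⋆ₐ[ℂ] (K →L[ℂ] K))}

theorem tau_tau (k : Type) [Field k] (g : G3 k) : tau k (tau k g) = g := by
  apply Subtype.ext
  change ((tau k g)⁻¹).1ᵀ = g.1
  rw [← map_inv]
  change ((g⁻¹)⁻¹).1ᵀᵀ = g.1
  rw [inv_inv, Matrix.transpose_transpose]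

/-- `tau` as an automorphism -/
def tauE (k : Type) [Field k] : G3 k ≃* G3 k where
  toFun := tau k
  invFun := tau k
  left_inv g := tau_tau k g
  right_inv g := tau_tau k g
  map_mul' g h := map_mul (tau k) g h

omit [ProperSpace k] in
theorem tau_cont : Continuous (tau k) := by
  exact H514.NI.itr_cont

/-- Two different points agree nowhere, twisted form. -/
theorem agr_tw (hp : Pic π lam W Ω) {act' : Γ → PP k → PP k} (hNI : NIS act')
    (θ : G3 k ≃* G3 k) (hθ' : Continuous θ.symm)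
    (cm : ∀ a f, Cm W (E a f))
    (cov : ∀ γ a, ∀ f f' : CP k, (∀ x, f' (act' γ x) = f x) → lam γ * E a f * lam γ⁻¹ = E a f')
    (hact : ∀ γ, ∀ f : CP k, ∃ f' : CP k, ∀ x, f' (act' γ x) = f x)
    (hcov : ∀ g a f, π g * E a f = E (θ g • a) f * π g) :
    ∀ a b, a ≠ b → ∀ ξ, (∀ f, E a f ξ = E b f ξ) → ξ = 0 := by
  intro a b hab
  have hl1 : ∀ γ, lam γ⁻¹ * lam γ = 1 := fun γ => by rw [← map_mul, inv_mul_cancel, map_one]
  refine (agr_pic hp (by simp) θ hθ' hcov cm ?_ ?_ hab).1
  · intro γ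
    choose σ hσ using hact γ
    refine ⟨σ, fun c F => ?_⟩
    rw [← cov γ c F (σ F) (hσ F), mul_assoc, hl1, mul_one]
  · intro hc
    refine const_false_hom hNI hp.nΩ hp.inv (E (SD.ept k 0)) (fun γ f f' h => cov γ _ f f' h)
      (fun f w hw => cm _ f w hw) fun f g => ?_
    exact (comm_of_const (β := fun c F => E c F) (act := fun g c => θ g • c)
      (π := fun g => π g) hcov hc g (SD.ept k 0) f).symm

theorem act_spec (g : G3 k) (f : CP k) (x : PP k) : act g f (g • x) = f x := by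
  change f (g⁻¹ • g • x) = f x
  rw [inv_smul_smul]

theorem act_uniq (g : G3 k) {f f' : CP k} (h : ∀ x, f' (g • x) = f x) : f' = act g f := by
  ext x
  change f' x = f (g⁻¹ • x)
  rw [← h, smul_inv_smul]

/-- **[D-AGR]**, points: the field `EFam.agr`. -/
theorem agr_points (hp : Pic π lam W Ω) (hNI : NIS fun (γ : Γ) (x : PP k) => q γ • x)
    (cm : ∀ a f, Cm W (E a f))
    (cov : ∀ γ a f, lam γ * E a f * lam γ⁻¹ = E a (act (q γ) f))
    (pcov : ∀ g a f, π g * E a f * π g⁻¹ = E (g • a) f) :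
    ∀ a b, a ≠ b → ∀ ξ, (∀ f, E a f ξ = E b f ξ) → ξ = 0 := by
  refine agr_tw hp hNI (MulEquiv.refl _) continuous_id cm ?_ ?_ ?_
  · intro γ a f f' h
    rw [act_uniq (q γ) h, cov]
  · exact fun γ f => ⟨act (q γ) f, act_spec _ _⟩
  · intro g a f
    change π g * E a f = E (g • a) f * π g
    rw [← pcov, mul_assoc, ← map_mul, inv_mul_cancel, map_one, mul_one]

/-- **[D-AGR]**, lines: the field `EFam.agr` of the dual family. -/
theorem agr_lines (hp : Pic π lam W Ω)
    (hNI : NIS fun (γ : Γ) (x : PP k) => ((tau k).comp q) γ • x)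
    (cm : ∀ a f, Cm W (E a f))
    (cov : ∀ γ a f, lam γ * E a f * lam γ⁻¹ = E a (act (((tau k).comp q) γ) f))
    (pcov : ∀ g a f, (π.comp (tau k)) g * E a f * (π.comp (tau k)) g⁻¹ = E (g • a) f) :
    ∀ a b, a ≠ b → ∀ ξ, (∀ f, E a f ξ = E b f ξ) → ξ = 0 := by
  refine agr_tw hp hNI (tauE k) tau_cont cm ?_ ?_ ?_
  · intro γ a f f' h
    rw [act_uniq _ h, cov]
  · exact fun γ f => ⟨act _ f, act_spec _ _⟩
  · intro g a f
    change π g * E a f = E (tau k g • a) f * π g
    have h1 := pcov (tau k g) a f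
    rw [← h1]
    change π g * E a f = π (tau k (tau k g)) * E a f * π (tau k (tau k g)⁻¹) * π g
    rw [map_inv (tau k), tau_tau, mul_assoc, ← map_mul, inv_mul_cancel, map_one, mul_one]

end sd

section ni

variable {k : Type} [NontriviallyNormedField k] [ProperSpace k] {Γ : Type} [Group Γ]

/-- No invariant state on the plane, points. -/
theorem nis_points (q : Γ →* G3 k)
    (hΓ : ∃ ν : @MeasureTheory.Measure (G3 k ⧸ q.range) (borel (G3 k ⧸ q.range)), ν ≠ 0 ∧
      ν Set.univ < ⊤ ∧ ∀ g : G3 k, ∀ s : Set (G3 k ⧸ q.range),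
      MeasurableSet[borel (G3 k ⧸ q.range)] s → ν ((fun x => g • x) ⁻¹' s) = ν s) :
    NIS fun (γ : Γ) (x : PP k) => q γ • x :=
  nis_P (show (0 : Fin 3) ≠ 1 by decide) q hΓ

/-- No invariant state on the plane, lines. -/
theorem nis_lines (q : Γ →* G3 k) (hΓ : H514.NI.Covol q.range) :
    NIS fun (γ : Γ) (x : PP k) => ((tau k).comp q) γ • x := by
  intro φ h0 h1 hinv
  refine H514.NI.no_inv_C_tw (show (0 : Fin 3) ≠ 1 by decide) (tauE k) tau_cont q.range hΓ φ
    (fun F hF => ?_) h1 ?_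
  · let G : C(PP k, ℝ) := ⟨fun x => Real.sqrt (F x), F.continuous.sqrt⟩
    have e : H514.NI.toC F = star (H514.NI.toC G) * H514.NI.toC G := by
      ext x
      simp only [H514.NI.toC, ContinuousMap.coe_mk, ContinuousMap.mul_apply,
        ContinuousMap.star_apply, Complex.star_def, Complex.conj_ofReal, ← Complex.ofReal_mul, G]
      exact congrArg _ (Real.mul_self_sqrt (hF x)).symm
    rw [e]
    exact h0 _
  · rintro _ ⟨γ, rfl⟩ F
    exact (hinv γ (H514.NI.tr F (tauE k (q γ))) F fun x => rfl).symm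

end ni

end Vale.Agent.P092.H411
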