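import Mathlib

/-!
P092 (helper411), Team N, block [N-K2] (board #6352 (1)): the cells of an ultrametric local field:
closed balls of radius `(1/2)^m`.
-/

set_option linter.all false

open Set Filter Topology Metric

namespace Vale.Agent.P092.H411.CellsU

section

variable {𝕜 : Type*} [NontriviallyNormedField 𝕜] [IsUltrametricDist 𝕜]

/-- the label: a closed ball -/
def lab (m : ℕ) (x : 𝕜) : Set 𝕜 := closedBall x ((1 / 2 : ℝ) ^ m)

theorem lab_eq_iff {m : ℕ} {x y : 𝕜} : lab m x = lab m y ↔ ‖x - y‖ ≤ (1 / 2 : ℝ) ^ m := by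
  have hp : (0 : ℝ) ≤ (1 / 2 : ℝ) ^ m := by positivity
  constructor
  · intro h
    have h1 : x ∈ lab m y := h ▸ mem_closedBall_self hp
    exact mem_closedBall_iff_norm.1 h1
  · intro h
    exact (IsUltrametricDist.closedBall_eq_of_mem (mem_closedBall_iff_norm.2 h)).symm

theorem nest {m : ℕ} {x y : 𝕜} (h : lab (m + 1) x = lab (m + 1) y) : lab m x = lab m y := by
  rw [lab_eq_iff] at h ⊢
  refine h.trans ?_
  exact pow_le_pow_of_le_one (by norm_num) (by norm_num) (Nat.le_succ m)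

theorem small {m : ℕ} {x y : 𝕜} (h : lab m x = lab m y) : ‖x - y‖ ≤ (1 / 2 : ℝ) ^ m :=
  lab_eq_iff.1 h

theorem meas [MeasurableSpace 𝕜] [OpensMeasurableSpace 𝕜] (m : ℕ) (t : Set 𝕜) :
    MeasurableSet (lab m ⁻¹' {t} : Set 𝕜) := by
  have hopen : IsOpen (lab m ⁻¹' {t} : Set 𝕜) := by
    rw [Metric.isOpen_iff]
    intro x hx
    refine ⟨(1 / 2 : ℝ) ^ m, by positivity, fun y hy => ?_⟩
    have h1 : lab m y = lab m x := by
      rw [lab_eq_iff]
      exact (mem_ball_iff_norm.1 hy).le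
    change lab m y = t
    rw [h1]
    exact hx
  exact hopen.measurableSet

theorem count [ProperSpace 𝕜] (R : ℝ) : ∃ M : ℕ, ∀ (m : ℕ) (x : 𝕜), ∃ F : Finset (Set 𝕜),
    F.card ≤ M ∧ ∀ y : 𝕜, ‖y - x‖ ≤ R * (1 / 2 : ℝ) ^ m → lab m y ∈ F := by
  classical
  obtain ⟨t, ht⟩ := NormedField.exists_one_lt_norm 𝕜
  have ht0 : t ≠ 0 := by
    rintro rfl
    rw [norm_zero] at ht
    linarith
  -- a finite net of the ball of radius `R ‖t‖`
  obtain ⟨A, -, hA⟩ := (isCompact_closedBall (0 : 𝕜) (R * ‖t‖)).elim_finite_subcover_image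
    (b := univ) (c := fun a : 𝕜 => ball a 1) (fun a _ => isOpen_ball)
    (fun y _ => mem_iUnion₂.2 ⟨y, mem_univ y, mem_ball_self one_pos⟩)
  obtain ⟨hAf, hA⟩ := hA
  refine ⟨hAf.toFinset.card, fun m x => ?_⟩
  obtain ⟨n, hn1, hn2⟩ := exists_mem_Ico_zpow (x := (1 / 2 : ℝ) ^ m) (by positivity) ht
  refine ⟨hAf.toFinset.image fun a => lab m (x + t ^ n * a), Finset.card_image_le, fun y hy => ?_⟩
  have hz : ‖(t ^ n)⁻¹ * (y - x)‖ ≤ R * ‖t‖ := by
    rw [norm_mul, norm_inv, norm_zpow]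
    have hR : ‖y - x‖ ≤ R * ‖t‖ ^ (n + 1) := by
      rcases le_or_gt 0 R with h0 | h0
      · exact hy.trans (mul_le_mul_of_nonneg_left hn2.le h0)
      · exfalso
        have h1 : R * (1 / 2 : ℝ) ^ m < 0 := mul_neg_of_neg_of_pos h0 (by positivity)
        linarith [norm_nonneg (y - x)]
    have htn : (0 : ℝ) < ‖t‖ ^ n := zpow_pos (norm_pos_iff.2 ht0) n
    rw [inv_mul_le_iff₀ htn]
    refine hR.trans (le_of_eq ?_)
    rw [zpow_add_one₀ (norm_pos_iff.2 ht0).ne']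
    ring
  have hmem : (t ^ n)⁻¹ * (y - x) ∈ ⋃ a ∈ A, ball a 1 :=
    hA (by rw [mem_closedBall_zero_iff]; exact hz)
  obtain ⟨a, ha, hya⟩ := mem_iUnion₂.1 hmem
  refine Finset.mem_image.2 ⟨a, hAf.mem_toFinset.2 ha, ?_⟩
  rw [lab_eq_iff]
  have e1 : x + t ^ n * a - y = t ^ n * (a - (t ^ n)⁻¹ * (y - x)) := by
    have htn : t ^ n ≠ 0 := zpow_ne_zero n ht0
    field_simp
    ring
  rw [e1, norm_mul, norm_zpow]
  have h2 : ‖a - (t ^ n)⁻¹ * (y - x)‖ ≤ 1 := by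
    rw [norm_sub_rev]
    exact (mem_ball_iff_norm.1 hya).le
  calc ‖t‖ ^ n * ‖a - (t ^ n)⁻¹ * (y - x)‖ ≤ ‖t‖ ^ n * 1 :=
        mul_le_mul_of_nonneg_left h2 (zpow_nonneg (norm_nonneg t) n)
    _ ≤ (1 / 2 : ℝ) ^ m := by rw [mul_one]; exact hn1

end

end Vale.Agent.P092.H411.CellsU
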