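import Vale.Agent.P092.H411.NAgr
import Vale.Agent.P092.H618.RkDefs

/-!
P092 (helper411), Team N: the operator fields of `H618.RkData` (zero-one laws `zo`, `zo2`,
`noinv`, adjoints, covariance) in the picture `RC.Pic`.
-/

set_option linter.all false

open scoped InnerProductSpace
open ContinuousLinearMap

namespace Vale.Agent.P092.H411

open Vale.Agent.P092.RC Vale.Agent.P092.H76.Pur Vale.Agent.P092.H618

section pic

variable {H Γ K : Type} [Group H] [TopologicalSpace H] [Group Γ] [NormedAddCommGroup K]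
  [InnerProductSpace ℂ K] [CompleteSpace K]
  {π : H →* (K →L[ℂ] K)} {lamG : Γ →* (K →L[ℂ] K)} {W : Set (K →L[ℂ] K)} {Ω : K}

/-- field `zo`, `zo2` -/
theorem rk_zo (hp : RC.Pic π lamG W Ω) {S : Set H} (hS : RC.Moore S) :
    ∀ P : K →L[ℂ] K, adjoint P = P → P * P = P →
    (∀ γ, P * lamG γ = lamG γ * P) → (∀ w ∈ W, P * w = w * P) →
    (∀ g ∈ S, P * π g = π g * P) → P = 0 ∨ P = 1 :=
  fun _ _ h2 h3 h4 h5 => zero_one hp hS h4 h3 h5 h2

/-- field `noinv` -/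
theorem rk_noinv (hp : RC.Pic π lamG W Ω) {Y : Type} [TopologicalSpace Y] [CompactSpace Y]
    [MulAction Γ Y] [ContinuousConstSMul Γ Y] (hNI : NIS fun (γ : Γ) (y : Y) => γ • y) :
    ∀ G : C(Y, ℂ) →⋆ₐ[ℂ] (K →L[ℂ] K),
    (∀ g f, π g * G f = G f * π g) → (∀ w ∈ W, ∀ f, w * G f = G f * w) →
    (∀ γ f, lamG γ * G f * lamG γ⁻¹ =
      G (f.comp ⟨fun y => γ⁻¹ • y, continuous_const_smul γ⁻¹⟩)) → False := by
  intro G h1 h2 h3
  refine const_false_hom hNI hp.nΩ hp.inv G (fun γ f f' h => ?_) (fun f w hw => (h2 w hw f).symm)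
    fun f g => (h1 g f).symm
  rw [h3]
  congr 1
  ext y
  change f (γ⁻¹ • y) = f' y
  rw [← h, smul_inv_smul]

/-- All operator fields of `RkData` from the picture. -/
theorem rkData_of (hp : RC.Pic π lamG W Ω) (N : ℕ) {Y : ℕ → Type} [∀ d, MetricSpace (Y d)]
    [∀ d, CompactSpace (Y d)] {I : ∀ i j, Y i → Y j → Prop} {S : ℕ → Type}
    {R : ∀ i j, S i → S j → Prop} [∀ d, MulAction Γ (Y d)]
    [∀ d, ContinuousConstSMul Γ (Y d)] [∀ j, MulAction H (S j)]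
    {lam : S N → (C(Y N, ℂ) →⋆ₐ[ℂ] (K →L[ℂ] K))}
    {bet : S 1 → (C(Y 1, ℂ) →⋆ₐ[ℂ] (K →L[ℂ] K))}
    (hN : 1 ≤ N) (tgeo : TGeo N Y I) (sgeo : SGeo N S R H)
    (gI : ∀ (γ : Γ) i j L L', I i j L L' → I i j (γ • L) (γ • L'))
    (moore : ∀ j, 1 ≤ j → j ≤ N → ∀ X : S j, RC.Moore {g : H | g • X = X})
    (moore2 : ∀ j, 1 ≤ j → j < N → ∀ A B : S (j + 1), A ≠ B →
      (∃ X : S j, R j (j + 1) X A ∧ R j (j + 1) X B) → RC.Moore {g : H | g • A = A ∧ g • B = B})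
    (nis : ∀ d, 1 ≤ d → d ≤ N → NIS fun (γ : Γ) (y : Y d) => γ • y)
    (cm : ∀ M f, Cm W (lam M f))
    (covG : ∀ γ M f, lamG γ * lam M f * lamG γ⁻¹ =
      lam M (f.comp ⟨fun y => γ⁻¹ • y, continuous_const_smul γ⁻¹⟩))
    (covP : ∀ g M f, π g * lam M f * π g⁻¹ = lam (g • M) f)
    (w0 : ∀ c : S 1, ∀ T ∈ WA (Y := Y) R lam c, ∀ M, R 1 N c M → ∀ u h, Nin (I 1 N) u h →
      bet c u * T * lam M h = 0) :
    RkData N I R Γ H lamG π W lam bet where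
  hN := hN
  tgeo := tgeo
  sgeo := sgeo
  gI := gI
  uG := hp.adjL
  uπ := hp.adjP
  sW := hp.Wadj
  covG := covG
  covπ := covP
  covW := fun w hw M f => (cm M f w hw).symm
  zo := fun j h1 h2 X P a b c d e => rk_zo hp (moore j h1 h2 X) P a b c d fun g hg => e g hg
  zo2 := fun j h1 h2 A B hAB hX P a b c d e =>
    rk_zo hp (moore2 j h1 h2 A B hAB hX) P a b c d fun g hg => e g hg.1 hg.2
  noinv := fun d h1 h2 G a b c => rk_noinv hp (nis d h1 h2) G a b c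
  w0 := w0

end pic

end Vale.Agent.P092.H411
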