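import Vale.Agent.P092.H560.RkDefs
import Vale.Agent.P092.H618.RkDefs

/-!
P092 (helper411), Team N, block [N-RK], part [LOC] of board #6153: two small sets of target
subspaces which are not incident have a small join (compactness + the field `span` of `TGeo`).
-/

set_option linter.all false

open Set Filter Topology Metric

namespace Vale.Agent.P092.H411.RkLoc

open Vale.Agent.P092.H560 Vale.Agent.P092.H618

variable {N : ℕ} {Y : ℕ → Type} [∀ d, MetricSpace (Y d)] [∀ d, CompactSpace (Y d)]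
  {I : ∀ i j, Y i → Y j → Prop}

/-- the general form: a compact set of non-incident pairs -/
theorem loc_pairs (D : TGeo N Y I) {i j : ℕ} (hi : 1 ≤ i) (hij : i ≤ j) (hj : j < N)
    {P : Set (Y i × Y j)} (hP : IsCompact P) (hPI : ∀ q ∈ P, ¬ I i j q.1 q.2) {ε : ℝ}
    (hε : 0 < ε) : ∃ η > 0, ∀ (O : Set (Y i)) (O' : Set (Y j)), Sm η O → Sm η O' →
      (∃ q ∈ P, q.1 ∈ O ∧ q.2 ∈ O') →
      ∃ O₁ : Set (Y (j + 1)), Sm ε O₁ ∧ hat (I i N) O ∩ hat (I j N) O' ⊆ hat (I (j + 1) N) O₁ := by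
  have h1 : ∀ q₀ : P, ∃ (z : Y (j + 1)) (U : Set (Y i × Y j)), IsOpen U ∧ q₀.1 ∈ U ∧
      ∀ q ∈ U, ∃ y : Y (j + 1), dist y z ≤ ε / 2 ∧
        ∀ M : Y N, I i N q.1 M → I j N q.2 M → I (j + 1) N y M := by
    rintro ⟨q₀, hq₀⟩
    obtain ⟨s, hs, hev⟩ := D.span i j hi hij hj q₀.1 q₀.2 (hPI q₀ hq₀)
    have h2 : ∀ᶠ q in 𝓝 q₀, dist (s q) (s q₀) < ε / 2 :=
      hs (ball_mem_nhds (s q₀) (half_pos hε))
    obtain ⟨U, hU, hUo, hqU⟩ := _root_.mem_nhds_iff.1 (h2.and hev)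
    exact ⟨s q₀, U, hUo, hqU, fun q hq => ⟨s q, (hU hq).1.le, (hU hq).2⟩⟩
  choose z U hUo hqU hU using h1
  obtain ⟨δ, hδ, hcov⟩ := lebesgue_number_lemma_of_metric hP hUo
    (fun q hq => mem_iUnion.2 ⟨⟨q, hq⟩, hqU ⟨q, hq⟩⟩)
  refine ⟨δ / 2, half_pos hδ, fun O O' hO hO' ⟨q, hq, hqO, hqO'⟩ => ?_⟩
  obtain ⟨q₀, hq₀⟩ := hcov q hq
  refine ⟨closedBall (z q₀) (ε / 2), ⟨isClosed_closedBall, fun y hy y' hy' => ?_⟩, ?_⟩
  · have := dist_triangle_right y y' (z q₀)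
    have e1 : dist y (z q₀) ≤ ε / 2 := hy
    have e2 : dist y' (z q₀) ≤ ε / 2 := hy'
    linarith
  · rintro M ⟨⟨y, hy, hyM⟩, y', hy', hyM'⟩
    have hmem : (y, y') ∈ U q₀ := by
      refine hq₀ ?_
      rw [mem_ball, Prod.dist_eq]
      refine max_lt ?_ ?_
      · exact (hO.2 y hy q.1 hqO).trans_lt (half_lt_self hδ)
      · exact (hO'.2 y' hy' q.2 hqO').trans_lt (half_lt_self hδ)
    obtain ⟨w, hw, hwM⟩ := hU q₀ (y, y') hmem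
    exact ⟨w, hw, hwM M hyM hyM'⟩

/-- **[LOC]** -/
theorem loc (D : TGeo N Y I) {d : ℕ} (h1 : 1 ≤ d) (h2 : d < N) :
    LOC (Y := Y d) (Y₁ := Y (d + 1)) (I d N) (I (d + 1) N) := by
  intro δ hδ ε hε
  have hP : IsCompact {q : Y d × Y d | δ ≤ dist q.1 q.2} :=
    (isClosed_le continuous_const (continuous_fst.dist continuous_snd)).isCompact
  obtain ⟨η, hη, h⟩ := loc_pairs D h1 le_rfl h2 hP (fun q hq hI => by
    have e := (D.refl d q.1 q.2).1 hI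
    have hq' : δ ≤ dist q.1 q.2 := hq
    rw [e, dist_self] at hq'
    exact absurd hq' (not_le.2 hδ)) hε
  refine ⟨η, hη, fun O O' hO hO' hd => ?_⟩
  by_cases hne : O.Nonempty ∧ O'.Nonempty
  · obtain ⟨⟨y, hy⟩, y', hy'⟩ := hne
    exact h O O' hO hO' ⟨(y, y'), hd y hy y' hy', hy, hy'⟩
  · refine ⟨∅, ⟨isClosed_empty, fun y hy => absurd hy (notMem_empty y)⟩, ?_⟩
    rintro M ⟨⟨y, hy, -⟩, y', hy', -⟩
    exact absurd ⟨⟨y, hy⟩, y', hy'⟩ hne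

/-- **[LOCI]** -/
theorem loci (D : TGeo N Y I) {i j : ℕ} (hi : 1 ≤ i) (hij : i ≤ j) (hj : j < N)
    {A : Set (Y i)} {B : Set (Y j)} (hA : IsCompact A) (hB : IsCompact B)
    (hAB : ∀ y ∈ A, ∀ y' ∈ B, ¬ I i j y y') : ∀ ε > 0, ∃ η > 0, ∀ (O : Set (Y i))
      (O' : Set (Y j)), Sm η O → Sm η O' → (O ∩ A).Nonempty → (O' ∩ B).Nonempty →
      ∃ O₁ : Set (Y (j + 1)), Sm ε O₁ ∧
        hat (I i N) O ∩ hat (I j N) O' ⊆ hat (I (j + 1) N) O₁ := by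
  intro ε hε
  obtain ⟨η, hη, h⟩ := loc_pairs D hi hij hj (hA.prod hB)
    (fun q hq => hAB q.1 hq.1 q.2 hq.2) hε
  exact ⟨η, hη, fun O O' hO hO' ⟨y, hy, hyA⟩ ⟨y', hy', hyB⟩ =>
    h O O' hO hO' ⟨(y, y'), ⟨hyA, hyB⟩, hy, hy'⟩⟩

/-- the closed relation form of [LOCI]: `A`, `B` closed -/
theorem loci' (D : TGeo N Y I) {i j : ℕ} (hi : 1 ≤ i) (hij : i ≤ j) (hj : j < N)
    {A : Set (Y i)} {B : Set (Y j)} (hA : IsClosed A) (hB : IsClosed B)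
    (hAB : ∀ y ∈ A, ∀ y' ∈ B, ¬ I i j y y') : ∀ ε > 0, ∃ η > 0, ∀ (O : Set (Y i))
      (O' : Set (Y j)), Sm η O → Sm η O' → (O ∩ A).Nonempty → (O' ∩ B).Nonempty →
      ∃ O₁ : Set (Y (j + 1)), Sm ε O₁ ∧
        hat (I i N) O ∩ hat (I j N) O' ⊆ hat (I (j + 1) N) O₁ :=
  loci D hi hij hj hA.isCompact hB.isCompact hAB

/-- the top level: two different hyperplanes have disjoint hats -/
theorem loc_top (D : TGeo N Y I) (Y₁ : Type) [MetricSpace Y₁] :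
    LOC (Y := Y N) (Y₁ := Y₁) (I N N) (fun (_ : Y₁) (_ : Y N) => False) := by
  intro δ hδ ε hε
  refine ⟨1, one_pos, fun O O' hO hO' hd => ⟨∅, ⟨isClosed_empty, fun y hy =>
    absurd hy (notMem_empty y)⟩, ?_⟩⟩
  rintro M ⟨⟨y, hy, hyM⟩, y', hy', hyM'⟩
  have e1 := (D.refl N y M).1 hyM
  have e2 := (D.refl N y' M).1 hyM'
  have h := hd y hy y' hy'
  rw [e1, e2, dist_self] at h
  exact absurd h (not_le.2 hδ)

/-- the top level of [LOCI] -/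
theorem loci_top (D : TGeo N Y I) {i : ℕ} {A : Set (Y i)} {B : Set (Y N)} (hA : IsClosed A)
    (hB : IsClosed B) (hAB : ∀ y ∈ A, ∀ y' ∈ B, ¬ I i N y y') :
    ∃ η > 0, ∀ (O : Set (Y i)) (O' : Set (Y N)), Sm η O → Sm η O' → (O ∩ A).Nonempty →
      (O' ∩ B).Nonempty → hat (I i N) O ∩ hat (I N N) O' = ∅ := by
  have hP : IsCompact (A ×ˢ B) := hA.isCompact.prod hB.isCompact
  obtain ⟨δ, hδ, hcov⟩ := lebesgue_number_lemma_of_metric hP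
    (c := fun _ : Unit => {q : Y i × Y N | I i N q.1 q.2}ᶜ)
    (fun _ => (D.closed i N).isOpen_compl)
    (fun q hq => mem_iUnion.2 ⟨(), hAB q.1 hq.1 q.2 hq.2⟩)
  refine ⟨δ / 2, half_pos hδ, fun O O' hO hO' ⟨y₀, hy₀, hyA⟩ ⟨y₁, hy₁, hyB⟩ => ?_⟩
  obtain ⟨-, h⟩ := hcov (y₀, y₁) ⟨hyA, hyB⟩
  rw [eq_empty_iff_forall_notMem]
  rintro M ⟨⟨y, hy, hyM⟩, y', hy', hyM'⟩
  have e2 := (D.refl N y' M).1 hyM'
  subst e2
  have hmem : (y, y') ∈ ball (y₀, y₁) δ := by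
    rw [mem_ball, Prod.dist_eq]
    exact max_lt ((hO.2 y hy y₀ hy₀).trans_lt (half_lt_self hδ))
      ((hO'.2 y' hy' y₁ hy₁).trans_lt (half_lt_self hδ))
  exact h hmem hyM

end Vale.Agent.P092.H411.RkLoc
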