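import Mathlib

/-!
P092 (helper411), Team D, block [D-AGR], abstract part: the agreement space of two families of
operators (two representations of `C(X)`), its projection, and the dichotomy `0` or `1`.
-/

set_option linter.all false

open scoped InnerProductSpace
open ContinuousLinearMap

namespace Vale.Agent.P092.H411

section agr

variable {𝓗 : Type*} [NormedAddCommGroup 𝓗] [InnerProductSpace ℂ 𝓗] [CompleteSpace 𝓗]
variable {ι : Type*} {β₁ β₂ : ι → 𝓗 →L[ℂ] 𝓗}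

/-- The agreement space of two families of operators. -/
def Agr (β₁ β₂ : ι → 𝓗 →L[ℂ] 𝓗) : Submodule ℂ 𝓗 where
  carrier := {ζ | ∀ F, β₁ F ζ = β₂ F ζ}
  add_mem' {a b} ha hb F := by rw [map_add, map_add, ha F, hb F]
  zero_mem' F := by rw [map_zero, map_zero]
  smul_mem' c x hx F := by rw [map_smul, map_smul, hx F]

omit [CompleteSpace 𝓗] in
theorem mem_Agr {ζ : 𝓗} : ζ ∈ Agr β₁ β₂ ↔ ∀ F, β₁ F ζ = β₂ F ζ := Iff.rfl

omit [CompleteSpace 𝓗] in
theorem isClosed_Agr : IsClosed (Agr β₁ β₂ : Set 𝓗) := by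
  have e : (Agr β₁ β₂ : Set 𝓗) = ⋂ F, {ζ | β₁ F ζ = β₂ F ζ} := by
    ext ζ
    simp only [Set.mem_iInter, Set.mem_setOf_eq]
    rfl
  rw [e]
  exact isClosed_iInter fun F => isClosed_eq (β₁ F).continuous (β₂ F).continuous

instance : CompleteSpace (Agr β₁ β₂) := isClosed_Agr.completeSpace_coe

/-- `S` intertwines both families with a common relabelling. -/
def Nrm (β₁ β₂ : ι → 𝓗 →L[ℂ] 𝓗) (S : 𝓗 →L[ℂ] 𝓗) : Prop :=
  ∀ F, ∃ F', β₁ F * S = S * β₁ F' ∧ β₂ F * S = S * β₂ F'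

omit [CompleteSpace 𝓗] in
theorem Nrm.map {S : 𝓗 →L[ℂ] 𝓗} (h : Nrm β₁ β₂ S) {ζ : 𝓗} (hζ : ζ ∈ Agr β₁ β₂) :
    S ζ ∈ Agr β₁ β₂ := by
  intro F
  obtain ⟨F', h1, h2⟩ := h F
  have e1 := congrArg (fun T : 𝓗 →L[ℂ] 𝓗 => T ζ) h1
  have e2 := congrArg (fun T : 𝓗 →L[ℂ] 𝓗 => T ζ) h2
  change β₁ F (S ζ) = S (β₁ F' ζ) at e1
  change β₂ F (S ζ) = S (β₂ F' ζ) at e2
  rw [e1, e2, hζ F']

omit [CompleteSpace 𝓗] in
theorem Nrm.of_comm {S : 𝓗 →L[ℂ] 𝓗} (h1 : ∀ F, β₁ F * S = S * β₁ F)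
    (h2 : ∀ F, β₂ F * S = S * β₂ F) : Nrm β₁ β₂ S := fun F => ⟨F, h1 F, h2 F⟩

theorem Nrm.adj_of_comm {S : 𝓗 →L[ℂ] 𝓗} {σ : ι → ι} (hσ : ∀ F, adjoint (β₁ (σ F)) = β₁ F)
    (hσ' : ∀ F, adjoint (β₂ (σ F)) = β₂ F)
    (h1 : ∀ F, β₁ F * S = S * β₁ F) (h2 : ∀ F, β₂ F * S = S * β₂ F) :
    Nrm β₁ β₂ (adjoint S) := by
  refine Nrm.of_comm (fun F => ?_) fun F => ?_
  · have := congrArg adjoint (h1 (σ F))
    simp only [← star_eq_adjoint, star_mul] at this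
    simp only [star_eq_adjoint, hσ] at this
    exact this.symm
  · have := congrArg adjoint (h2 (σ F))
    simp only [← star_eq_adjoint, star_mul] at this
    simp only [star_eq_adjoint, hσ'] at this
    exact this.symm

/-- The projection on the agreement space. -/
noncomputable def PA (β₁ β₂ : ι → 𝓗 →L[ℂ] 𝓗) : 𝓗 →L[ℂ] 𝓗 := (Agr β₁ β₂).starProjection

theorem PA_of_mem {ζ : 𝓗} (h : ζ ∈ Agr β₁ β₂) : PA β₁ β₂ ζ = ζ :=
  Submodule.starProjection_eq_self_iff.2 h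

theorem PA_mem (ζ : 𝓗) : PA β₁ β₂ ζ ∈ Agr β₁ β₂ :=
  Submodule.starProjection_apply_mem _ _

/-- The projection on the agreement space commutes with every operator which, together with its
adjoint, intertwines both families with a common relabelling. -/
theorem comm_PA {S : 𝓗 →L[ℂ] 𝓗} (h : Nrm β₁ β₂ S) (h' : Nrm β₁ β₂ (adjoint S)) :
    PA β₁ β₂ * S = S * PA β₁ β₂ := by
  ext1 ζ
  change PA β₁ β₂ (S ζ) = S (PA β₁ β₂ ζ)
  refine Submodule.eq_starProjection_of_mem_orthogonal (h.map (PA_mem ζ)) ?_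
  rw [Submodule.mem_orthogonal]
  intro u hu
  rw [← map_sub, ← adjoint_inner_left]
  exact Submodule.inner_right_of_mem_orthogonal (h'.map hu)
    (Submodule.sub_starProjection_mem_orthogonal ζ)

/-- **Dichotomy**: if the only operators commuting with `𝒮` are the scalars, and every element of
`𝒮` together with its adjoint intertwines both families with a common relabelling, then either the
two families are equal or they agree nowhere. -/
theorem agr_dich {𝒮 : Set (𝓗 →L[ℂ] 𝓗)}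
    (herg : ∀ T : 𝓗 →L[ℂ] 𝓗, (∀ S ∈ 𝒮, T * S = S * T) → ∃ c : ℂ, T = c • 1)
    (h𝒮 : ∀ S ∈ 𝒮, Nrm β₁ β₂ S ∧ Nrm β₁ β₂ (adjoint S)) :
    (∀ F, β₁ F = β₂ F) ∨ ∀ ζ, (∀ F, β₁ F ζ = β₂ F ζ) → ζ = 0 := by
  obtain ⟨c, hc⟩ := herg (PA β₁ β₂) fun S hS => comm_PA (h𝒮 S hS).1 (h𝒮 S hS).2
  by_cases h0 : c = 0
  · right
    intro ζ hζ
    have h1 := PA_of_mem (β₁ := β₁) (β₂ := β₂) hζ
    rw [hc, h0, zero_smul] at h1
    exact h1.symm
  · left
    intro F
    ext1 ζ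
    have h1 : c • ζ ∈ Agr β₁ β₂ := by
      have := PA_mem (β₁ := β₁) (β₂ := β₂) ζ
      rw [hc] at this
      exact this
    have h2 : ζ ∈ Agr β₁ β₂ := by
      have := (Agr β₁ β₂).smul_mem c⁻¹ h1
      rwa [smul_smul, inv_mul_cancel₀ h0, one_smul] at this
    exact h2 F

omit [CompleteSpace 𝓗] in
/-- operator form of `agree nowhere` -/
theorem eq_zero_of_agr (h : ∀ ζ : 𝓗, (∀ F, β₁ F ζ = β₂ F ζ) → ζ = 0) {R : 𝓗 →L[ℂ] 𝓗}
    (hR : ∀ F, β₁ F * R = β₂ F * R) : R = 0 := by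
  ext1 ζ
  exact h _ fun F => congrArg (fun T : 𝓗 →L[ℂ] 𝓗 => T ζ) (hR F)

/-- operator form of `agree nowhere`, adjoint version -/
theorem eq_zero_of_agr' {σ : ι → ι} (hσ : ∀ F, adjoint (β₁ F) = β₁ (σ F))
    (hσ' : ∀ F, adjoint (β₂ F) = β₂ (σ F)) (hs : Function.Surjective σ)
    (h : ∀ ζ : 𝓗, (∀ F, β₁ F ζ = β₂ F ζ) → ζ = 0) {R : 𝓗 →L[ℂ] 𝓗}
    (hR : ∀ F, R * β₁ F = R * β₂ F) : R = 0 := by
  have h1 : adjoint R = 0 := by
    refine eq_zero_of_agr h fun F => ?_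
    obtain ⟨F', rfl⟩ := hs F
    have := congrArg adjoint (hR F')
    simp only [← star_eq_adjoint, star_mul] at this
    simp only [star_eq_adjoint, hσ, hσ'] at this
    exact this
  have h2 := congrArg adjoint h1
  rwa [adjoint_adjoint, map_zero] at h2

end agr

section fam

variable {𝓗 : Type*} [NormedAddCommGroup 𝓗] [InnerProductSpace ℂ 𝓗] [CompleteSpace 𝓗]
variable {ι Pt G : Type*} [Group G] {act : G → Pt → Pt} {β : Pt → ι → 𝓗 →L[ℂ] 𝓗}
  {π : G → 𝓗 →L[ℂ] 𝓗}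

omit [CompleteSpace 𝓗] in
/-- A covariant family, for a two-transitive action, which has two equal members, is constant. -/
theorem const_of_eq (h2 : ∀ a b a' b' : Pt, a ≠ b → a' ≠ b' → ∃ g : G, act g a = a' ∧ act g b = b')
    (hinv : ∀ g, π g * π g⁻¹ = 1) (hcov : ∀ g c F, π g * β c F = β (act g c) F * π g)
    {a b : Pt} (hab : a ≠ b) (he : ∀ F, β a F = β b F) : ∀ c c' F, β c F = β c' F := by
  intro c c' F
  by_cases hcc : c = c'
  · rw [hcc]
  · obtain ⟨g, h3, h4⟩ := h2 a b c c' hab hcc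
    have e1 := hcov g a F
    have e2 := hcov g b F
    rw [h3] at e1
    rw [h4] at e2
    calc β c F = β c F * (π g * π g⁻¹) := by rw [hinv, mul_one]
      _ = π g * β a F * π g⁻¹ := by rw [← mul_assoc, ← e1]
      _ = π g * β b F * π g⁻¹ := by rw [he F]
      _ = β c' F * (π g * π g⁻¹) := by rw [e2, mul_assoc]
      _ = β c' F := by rw [hinv, mul_one]

omit [CompleteSpace 𝓗] in
/-- A constant covariant family commutes with the representation. -/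
theorem comm_of_const (hcov : ∀ g c F, π g * β c F = β (act g c) F * π g)
    (hc : ∀ c c' F, β c F = β c' F) : ∀ g c F, π g * β c F = β c F * π g := by
  intro g c F
  rw [hcov, hc (act g c) c F]

/-- **[D-AGR]**, abstract family form. `𝒮 a b` is a set of operators with scalar commutant each of
which, with its adjoint, intertwines `β a` and `β b` with a common relabelling. -/
theorem agr_fam (h2 : ∀ a b a' b' : Pt, a ≠ b → a' ≠ b' → ∃ g : G, act g a = a' ∧ act g b = b')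
    (hinv : ∀ g, π g * π g⁻¹ = 1) (hcov : ∀ g c F, π g * β c F = β (act g c) F * π g)
    (hconst : ¬ ∀ c c' F, β c F = β c' F)
    {𝒮 : Pt → Pt → Set (𝓗 →L[ℂ] 𝓗)}
    (herg : ∀ a b, a ≠ b → ∀ T : 𝓗 →L[ℂ] 𝓗, (∀ S ∈ 𝒮 a b, T * S = S * T) → ∃ c : ℂ, T = c • 1)
    (h𝒮 : ∀ a b, a ≠ b → ∀ S ∈ 𝒮 a b, Nrm (β a) (β b) S ∧ Nrm (β a) (β b) (adjoint S))
    {a b : Pt} (hab : a ≠ b) : ∀ ζ, (∀ F, β a F ζ = β b F ζ) → ζ = 0 := by
  rcases agr_dich (herg a b hab) (h𝒮 a b hab) with h | h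
  · exact absurd (const_of_eq h2 hinv hcov hab h) hconst
  · exact h

end fam

end Vale.Agent.P092.H411
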