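import Vale.Agent.P092.H411.Agr
import Vale.Agent.P092.H514.NoInvRP
import Vale.Agent.P092.H103.CA1

/-!
P092 (helper411), Team D, block [D-AGR]: two different points (or lines) agree nowhere.
The stabiliser in `SL_n(k)`, `n ≥ 3`, of two different points has the Moore property.
-/

set_option linter.all false

open scoped InnerProductSpace LinearAlgebra.Projectivization Matrix
open ContinuousLinearMap Matrix

namespace Vale.Agent.P092.H411

open Vale.Agent.P092.H103

section moore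

variable {E : Type} [Group E] [TopologicalSpace E] [IsTopologicalGroup E]

theorem moore_conj {R R' : Set E} (h : MooreSet E R) (g : E) (hR : ∀ r ∈ R, g * r * g⁻¹ ∈ R') :
    MooreSet E R' := by
  intro 𝓗 _ _ _ σ hσ ξ hξ
  have h1 : ∀ r ∈ R, σ r (σ g⁻¹ ξ) = σ g⁻¹ ξ := by
    intro r hr
    have h2 := hξ _ (hR r hr)
    calc σ r (σ g⁻¹ ξ) = (σ r * σ g⁻¹) ξ := rfl
      _ = (σ g⁻¹ * σ (g * r * g⁻¹)) ξ := by rw [← map_mul, ← map_mul]; congr 2; group
      _ = σ g⁻¹ (σ (g * r * g⁻¹) ξ) := rfl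
      _ = σ g⁻¹ ξ := by rw [h2]
  have h3 := h 𝓗 σ hσ (σ g⁻¹ ξ) h1
  have h4 : σ g⁻¹ ξ = ξ := by
    have h5 := h3 g
    have h6 : (σ g * σ g⁻¹) ξ = σ g⁻¹ ξ := h5
    rw [← map_mul, mul_inv_cancel, map_one] at h6
    exact h6.symm
  rw [h4] at h3
  exact h3

theorem moore_aut {R : Set E} (h : MooreSet E R) (θ : E ≃* E) (hθ : Continuous θ.symm) :
    MooreSet E (θ ⁻¹' R) := by
  intro 𝓗 _ _ _ σ hσ ξ hξ
  have hσ' : H933.URep (σ.comp θ.symm.toMonoidHom) :=
    { iso := fun g => hσ.iso (θ.symm g)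
      cont := fun ξ => (hσ.cont ξ).comp (by
        have := hθ.tendsto 1
        rwa [map_one] at this) }
  have h1 := h 𝓗 (σ.comp θ.symm.toMonoidHom) hσ' ξ (fun r hr => hξ (θ.symm r) (by
    change θ (θ.symm r) ∈ R
    rw [θ.apply_symm_apply]
    exact hr))
  intro g
  have h2 := h1 (θ g)
  change σ (θ.symm (θ g)) ξ = ξ at h2
  rwa [θ.symm_apply_apply] at h2

end moore

section SL

variable {n : Type} [Fintype n] [DecidableEq n] {k : Type} [NontriviallyNormedField k]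

/-- the coordinate point -/
def ept (i : n) : ℙ k (n → k) := Projectivization.mk k (Pi.single i (1 : k)) (by
  intro h
  have := congrFun h i
  simp at this)

theorem ept_ne {i j : n} (hij : i ≠ j) : (ept i : ℙ k (n → k)) ≠ ept j := by
  intro h
  obtain ⟨c, hc⟩ := (Projectivization.mk_eq_mk_iff k _ _ _ _).1 h
  have := congrFun hc i
  simp [hij] at this

theorem transv_ept {i j l : n} (hil : i ≠ l) (hjl : j ≠ l) (s : k) :
    SpecialLinearGroup.transvection hil s • (ept j : ℙ k (n → k)) = ept j := by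
  refine (Projectivization.mk_eq_mk_iff k _ _ _ _).2 ⟨1, ?_⟩
  rw [one_smul]
  change Pi.single j 1 = (SpecialLinearGroup.transvection hil s).1 *ᵥ (Pi.single j (1 : k))
  have : (SpecialLinearGroup.transvection hil s).1 = Matrix.transvection i l s := rfl
  rw [this, Matrix.transvection, Matrix.add_mulVec, Matrix.one_mulVec, Matrix.single_mulVec]
  simp [hjl.symm]

/-- The stabiliser of two different points has the Moore property. -/
theorem moore_stab (h3 : 3 ≤ Fintype.card n) {a b : ℙ k (n → k)} (hab : a ≠ b) :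
    MooreSet (SpecialLinearGroup n k) {g | g • a = a ∧ g • b = b} := by
  obtain ⟨i, j, l, hij, hil, hjl⟩ := Fintype.two_lt_card_iff.1 h3
  obtain ⟨g, h1, h2⟩ := (MulAction.is_two_pretransitive_iff.1
    (inferInstance : MulAction.IsMultiplyPretransitive (SpecialLinearGroup n k) (ℙ k (n → k)) 2))
    (ept_ne hij) hab
  refine moore_conj (mooreSet_root hil) g ?_
  rintro _ ⟨s, rfl⟩
  constructor
  · rw [← h1, mul_smul, mul_smul, inv_smul_smul, transv_ept hil hil]
  · rw [← h2, mul_smul, mul_smul, inv_smul_smul, transv_ept hil hjl]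

theorem two_trans {a b a' b' : ℙ k (n → k)} (hab : a ≠ b) (hab' : a' ≠ b') :
    ∃ g : SpecialLinearGroup n k, g • a = a' ∧ g • b = b' :=
  (MulAction.is_two_pretransitive_iff.1
    (inferInstance : MulAction.IsMultiplyPretransitive (SpecialLinearGroup n k) (ℙ k (n → k)) 2))
    hab hab'

end SL

section main

variable {n : Type} [Fintype n] [DecidableEq n] {k : Type} [NontriviallyNormedField k]
  {𝓗 : Type*} [NormedAddCommGroup 𝓗] [InnerProductSpace ℂ 𝓗] [CompleteSpace 𝓗]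
  {X : Type*} [TopologicalSpace X]
  {π : SpecialLinearGroup n k →* (𝓗 →L[ℂ] 𝓗)}
  {β : ℙ k (n → k) → (C(X, ℂ) →⋆ₐ[ℂ] (𝓗 →L[ℂ] 𝓗))}

theorem beta_adj (c : ℙ k (n → k)) (F : C(X, ℂ)) : adjoint (β c F) = β c (star F) := by
  rw [map_star, star_eq_adjoint]

/-- A unitary which permutes the values of both representations normalises them. -/
theorem nrm_of_cov {ι : Type*} {β₁ β₂ : ι → 𝓗 →L[ℂ] 𝓗} {U U' : 𝓗 →L[ℂ] 𝓗} (h1 : U * U' = 1)
    (h2 : U' * U = 1) {σ : ι → ι} (ha : ∀ F, U' * β₁ F = β₁ (σ F) * U')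
    (hb : ∀ F, U' * β₂ F = β₂ (σ F) * U') : Nrm β₁ β₂ U := by
  refine fun F => ⟨σ F, ?_, ?_⟩
  · calc β₁ F * U = (U * U') * β₁ F * U := by rw [h1, one_mul]
      _ = U * (U' * β₁ F) * U := by simp only [mul_assoc]
      _ = U * β₁ (σ F) * (U' * U) := by rw [ha]; simp only [mul_assoc]
      _ = U * β₁ (σ F) := by rw [h2, mul_one]
  · calc β₂ F * U = (U * U') * β₂ F * U := by rw [h1, one_mul]
      _ = U * (U' * β₂ F) * U := by simp only [mul_assoc]
      _ = U * β₂ (σ F) * (U' * U) := by rw [hb]; simp only [mul_assoc]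
      _ = U * β₂ (σ F) := by rw [h2, mul_one]

/-- **[D-AGR]**: two different points (`θ = 1`) or lines (`θ` = inverse transpose) agree nowhere.
`𝒟` is the set of generators of the coefficient algebra and of the target group (decomposability,
`lam γ`, second leg). -/
theorem agr_main (h3 : 3 ≤ Fintype.card n) (θ : SpecialLinearGroup n k ≃* SpecialLinearGroup n k)
    (hθ' : Continuous θ.symm) (hπ : ∀ g, adjoint (π g) = π g⁻¹)
    (hcov : ∀ g c F, π g * β c F = β (θ g • c) F * π g)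
    {𝒟 : Set (𝓗 →L[ℂ] 𝓗)}
    (h𝒟 : ∀ S ∈ 𝒟, ∀ a b, Nrm (fun F => β a F) (fun F => β b F) S ∧
      Nrm (fun F => β a F) (fun F => β b F) (adjoint S))
    (herg : ∀ R : Set (SpecialLinearGroup n k), MooreSet (SpecialLinearGroup n k) R →
      ∀ T : 𝓗 →L[ℂ] 𝓗, (∀ S ∈ 𝒟, T * S = S * T) → (∀ q ∈ R, T * π q = π q * T) →
        ∃ c : ℂ, T = c • 1)
    (hconst : ¬ ∀ c c' F, β c F = β c' F) {a b : ℙ k (n → k)} (hab : a ≠ b) :
    (∀ ζ, (∀ F, β a F ζ = β b F ζ) → ζ = 0) ∧
    (∀ R : 𝓗 →L[ℂ] 𝓗, (∀ F, β a F * R = β b F * R) → R = 0) ∧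
    ∀ R : 𝓗 →L[ℂ] 𝓗, (∀ F, R * β a F = R * β b F) → R = 0 := by
  have hinv : ∀ g, π g * π g⁻¹ = 1 := fun g => by rw [← map_mul, mul_inv_cancel, map_one]
  have key : ∀ ζ, (∀ F, β a F ζ = β b F ζ) → ζ = 0 := by
    refine agr_fam (β := fun c F => β c F) (act := fun g c => θ g • c) (π := π)
      (𝒮 := fun a b => 𝒟 ∪ π '' {g | θ g • a = a ∧ θ g • b = b}) ?_ hinv hcov hconst ?_ ?_ hab
    · intro a b a' b' h1 h2
      obtain ⟨g, h4, h5⟩ := two_trans h1 h2
      refine ⟨θ.symm g, ?_, ?_⟩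
      · change θ (θ.symm g) • a = a'
        rw [θ.apply_symm_apply, h4]
      · change θ (θ.symm g) • b = b'
        rw [θ.apply_symm_apply, h5]
    · intro a b h1 T hT
      refine herg _ (moore_aut (moore_stab h3 h1) θ hθ') T (fun S hS => hT S (Or.inl hS)) ?_
      intro q hq
      exact hT _ (Or.inr ⟨q, hq, rfl⟩)
    · rintro a b h1 S (hS | ⟨q, ⟨hq1, hq2⟩, rfl⟩)
      · exact h𝒟 S hS a b
      · have e : ∀ g : SpecialLinearGroup n k, θ g • a = a → θ g • b = b →
            Nrm (fun F => β a F) (fun F => β b F) (π g) := by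
          intro g h4 h5
          refine Nrm.of_comm (fun F => ?_) fun F => ?_
          · have := hcov g a F
            rw [h4] at this
            exact this.symm
          · have := hcov g b F
            rw [h5] at this
            exact this.symm
        refine ⟨e q hq1 hq2, ?_⟩
        rw [hπ]
        refine e q⁻¹ ?_ ?_
        · rw [map_inv, inv_smul_eq_iff, hq1]
        · rw [map_inv, inv_smul_eq_iff, hq2]
  refine ⟨key, fun R hR => eq_zero_of_agr (β₁ := fun F => β a F) (β₂ := fun F => β b F) key hR,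
    fun R hR => ?_⟩
  exact eq_zero_of_agr' (β₁ := fun F => β a F) (β₂ := fun F => β b F) (σ := star)
    (fun F => beta_adj a F) (fun F => beta_adj b F) star_involutive.surjective key hR

end main

section ind

variable {n : Type} [Fintype n] [DecidableEq n] {k : Type} [NontriviallyNormedField k]
  [LocallyCompactSpace (SpecialLinearGroup n k)] [SecondCountableTopology (SpecialLinearGroup n k)]
  [MeasurableSpace (SpecialLinearGroup n k)] [BorelSpace (SpecialLinearGroup n k)]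
  {Λ : Subgroup (SpecialLinearGroup n k)} [DiscreteTopology Λ]
  [MeasurableSpace (SpecialLinearGroup n k ⧸ Λ)] [BorelSpace (SpecialLinearGroup n k ⧸ Λ)]
  {ν : MeasureTheory.Measure (SpecialLinearGroup n k ⧸ Λ)} [MeasureTheory.IsProbabilityMeasure ν]
  (hν : ∀ g : SpecialLinearGroup n k, ν.map (fun x => g • x) = ν)
  {Γ K : Type} [Group Γ] [NormedAddCommGroup K] [InnerProductSpace ℂ K] [CompleteSpace K]
  {ρ : Γ →* (K →L[ℂ] K)} {ω : K} [Countable Λ] {X : Type*} [TopologicalSpace X]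
  {β : ℙ k (n → k) → (C(X, ℂ) →⋆ₐ[ℂ] (MeasureTheory.Lp K 2 ν →L[ℂ] MeasureTheory.Lp K 2 ν))}

open Vale.Agent.P092.H790 Vale.Agent.P092.H85 Vale.Agent.P092.H160 MeasureTheory in
include hν in
/-- **[D-AGR]** on the induced representation, in the letters of `H103.a1`. -/
theorem agr_ind (h3 : 3 ≤ Fintype.card n)
    (θ : SpecialLinearGroup n k ≃* SpecialLinearGroup n k) (hθ' : Continuous θ.symm)
    (h : RegRep ρ ω) {V : Λ →* (K →L[ℂ] K)} (hVa : ∀ v, adjoint (V v) = V v⁻¹)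
    (hc : ∀ v, Cmm ρ (V v)) (hirr : ∀ A : K →L[ℂ] K, Cmm ρ A → Cmm V A → ∃ c : ℂ, A = c • 1)
    (hcov : ∀ g c F, iro hν V g * β c F = β (θ g • c) F * iro hν V g)
    (hd : ∀ c F, Dcp (β c F))
    (hρ : ∀ s : Γ, ∃ σ : C(X, ℂ) → C(X, ℂ), ∀ c F,
      (ρ s).compLpL 2 ν * β c F = β c (σ F) * (ρ s).compLpL 2 ν)
    (hconst : ¬ ∀ c c' F, β c F = β c' F) {a b : ℙ k (n → k)} (hab : a ≠ b) :
    (∀ ζ, (∀ F, β a F ζ = β b F ζ) → ζ = 0) ∧
    (∀ R : Lp K 2 ν →L[ℂ] Lp K 2 ν, (∀ F, β a F * R = β b F * R) → R = 0) ∧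
    ∀ R : Lp K 2 ν →L[ℂ] Lp K 2 ν, (∀ F, R * β a F = R * β b F) → R = 0 := by
  have hcov' : ∀ g c F, irep hν hVa g * β c F = β (θ g • c) F * irep hν hVa g := hcov
  have hρ1 : ∀ s : Γ, (ρ s).compLpL 2 ν * (ρ s⁻¹).compLpL 2 ν = 1 := fun s => by
    rw [← comp_mul, ← map_mul, mul_inv_cancel, map_one, H790.comp_one]
  refine agr_main (π := irep hν hVa) h3 θ hθ' (fun g => (irep_crep hν hVa).adj g) hcov'
    (𝒟 := {S | ∃ A, MeasurableSet A ∧ S = ind ν K A} ∪ Set.range fun s => (ρ s).compLpL 2 ν)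
    ?_ ?_ hconst hab
  · rintro S (⟨A, hA, rfl⟩ | ⟨s, rfl⟩) a b
    · have e : Nrm (fun F => β a F) (fun F => β b F) (ind ν K A) :=
        Nrm.of_comm (fun F => hd a F A hA) fun F => hd b F A hA
      refine ⟨e, ?_⟩
      rw [adjoint_ind hA]
      exact e
    · have e : ∀ s : Γ, Nrm (fun F => β a F) (fun F => β b F) ((ρ s).compLpL 2 ν) := by
        intro s
        obtain ⟨σ, hσ⟩ := hρ s⁻¹
        refine nrm_of_cov (hρ1 s) ?_ (fun F => hσ a F) fun F => hσ b F
        have := hρ1 s⁻¹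
        rwa [inv_inv] at this
      refine ⟨e s, ?_⟩
      change Nrm _ _ (adjoint ((ρ s).compLpL 2 ν))
      rw [comp_adjoint, h.adj]
      exact e s⁻¹
  · intro R hR T hT1 hT2
    exact a1 hν h hVa hc hirr hR (fun A hA => hT1 _ (Or.inl ⟨A, hA, rfl⟩))
      (fun s => hT1 _ (Or.inr ⟨s, rfl⟩)) hT2

end ind

end Vale.Agent.P092.H411
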