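import Vale.Agent.P092.H411.AgrP
import Vale.Agent.P092.RC.Defs

/-!
P092 (helper411), Team D, block [D-AGR] in the letters of `RC.Pic`.
-/

set_option linter.all false

open scoped InnerProductSpace LinearAlgebra.Projectivization Matrix
open ContinuousLinearMap Matrix

namespace Vale.Agent.P092.H411

open Vale.Agent.P092.RC

theorem rc_moore {G : Type} [Group G] [TopologicalSpace G] {S : Set G} (h : H103.MooreSet G S) :
    RC.Moore S :=
  fun E _ _ _ u hi hc ξ hξ => h E u ⟨hi, fun ξ => by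
    have := (hc ξ).tendsto 1
    rwa [map_one] at this⟩ ξ hξ

section pic

variable {n : Type} [Fintype n] [DecidableEq n] {k : Type} [NontriviallyNormedField k]
  {Γ K : Type} [Group Γ] [NormedAddCommGroup K] [InnerProductSpace ℂ K] [CompleteSpace K]
  {X : Type*} [TopologicalSpace X]
  {π : SpecialLinearGroup n k →* (K →L[ℂ] K)} {lam : Γ →* (K →L[ℂ] K)} {W : Set (K →L[ℂ] K)}
  {Ω : K} {β : ℙ k (n → k) → (C(X, ℂ) →⋆ₐ[ℂ] (K →L[ℂ] K))}

/-- **[D-AGR]** in the picture `RC.Pic`. -/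
theorem agr_pic (hp : Pic π lam W Ω) (h3 : 3 ≤ Fintype.card n)
    (θ : SpecialLinearGroup n k ≃* SpecialLinearGroup n k) (hθ' : Continuous θ.symm)
    (hcov : ∀ g c F, π g * β c F = β (θ g • c) F * π g) (hcm : ∀ c F, Cm W (β c F))
    (hlam : ∀ γ, ∃ σ : C(X, ℂ) → C(X, ℂ), ∀ c F, lam γ * β c F = β c (σ F) * lam γ)
    (hconst : ¬ ∀ c c' F, β c F = β c' F) {a b : ℙ k (n → k)} (hab : a ≠ b) :
    (∀ ζ, (∀ F, β a F ζ = β b F ζ) → ζ = 0) ∧
    (∀ R : K →L[ℂ] K, (∀ F, β a F * R = β b F * R) → R = 0) ∧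
    ∀ R : K →L[ℂ] K, (∀ F, R * β a F = R * β b F) → R = 0 := by
  have hl1 : ∀ γ, lam γ * lam γ⁻¹ = 1 := fun γ => by rw [← map_mul, mul_inv_cancel, map_one]
  refine agr_main (π := π) h3 θ hθ' hp.adjP hcov (𝒟 := W ∪ Set.range lam) ?_ ?_ hconst hab
  · rintro S (hS | ⟨γ, rfl⟩) a b
    · exact ⟨Nrm.of_comm (fun F => hcm a F S hS) fun F => hcm b F S hS,
        Nrm.of_comm (fun F => hcm a F _ (hp.Wadj S hS)) fun F => hcm b F _ (hp.Wadj S hS)⟩
    · have e : ∀ γ : Γ, Nrm (fun F => β a F) (fun F => β b F) (lam γ) := by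
        intro γ
        obtain ⟨σ, hσ⟩ := hlam γ⁻¹
        refine nrm_of_cov (hl1 γ) ?_ (fun F => hσ a F) fun F => hσ b F
        have := hl1 γ⁻¹
        rwa [inv_inv] at this
      refine ⟨e γ, ?_⟩
      rw [hp.adjL]
      exact e γ⁻¹
  · intro R hR T hT1 hT2
    exact hp.erg R (rc_moore hR) T (fun w hw => hT1 w (Or.inl hw))
      (fun γ => hT1 _ (Or.inr ⟨γ, rfl⟩)) hT2

end pic

end Vale.Agent.P092.H411
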