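import Vale.Agent.P092.H411.ResX

/-!
P092 (helper411), Team N, block [N-GAPB] (3b): if the mass of `{gap > r}` along a sequence does not
tend to zero uniformly as `r → ∞`, then there are a subsequence, an ultrafilter and slow cut-offs
with positive limit mass.
-/

set_option linter.all false

open Filter Topology

namespace Vale.Agent.P092.H411.ResX

open Vale.Agent.P092.H200 Vale.Agent.P092.H538 Vale.Agent.P092.H553 Vale.Agent.P092.H761
open Vale.Agent.P092.H515 Vale.Agent.P092.H218.NR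

section cut

variable {Γ 𝔾 J : Type} [Group Γ] [DecidableEq Γ] [Group 𝔾] [Fintype J]
  [DecidableEq J] {t : ℝ} {mass : 𝔾 → (Γ → ℝ) → ℝ} {Cpt : Set 𝔾 → Prop}
  {Ping : (p : ℕ) → (Fin p → 𝔾) → Prop} {r : ℕ} {gap : J → Γ → ℝ} {cl : J → Fin r}

/-- The cut-offs of a set of gaps, with level `τ N → ∞`, are slow on both sides. -/
theorem cut_up (hg : Gaps gap cl) (θ : Finset J) {U : Ultrafilter ℕ} {τ : ℕ → ℝ}
    (hτ0 : ∀ N, 0 < τ N) (hτ : Tendsto τ U atTop) : Cut U (fun N g => up gap θ (τ N) g) where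
  mem := fun N g => up_mem gap θ (τ N) g
  slow := fun a b δ hδ => by
    obtain ⟨C, hC⟩ := hg.quasi a b
    have hC' : ∀ j g, |gap j (a * g * b) - gap j g| ≤ |C| := fun j g => (hC j g).trans (le_abs_self C)
    have h1 : Tendsto (fun N => (Fintype.card J : ℝ) * (|C| / τ N)) U (𝓝 0) := by
      have := (hτ.const_div_atTop |C|).const_mul (Fintype.card J : ℝ)
      simpa using this
    filter_upwards [h1.eventually (gt_mem_nhds hδ)] with N hN g
    exact (up_lip (θ := θ) (h := a * g * b) (g := g) (hτ0 N) (abs_nonneg C)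
      fun j => hC' j g).trans hN.le

/-- On the support of the cut-off the gaps in `θ` are large. -/
theorem up_start (θ : Finset J) {U : Ultrafilter ℕ} {τ : ℕ → ℝ}
    (hτ0 : ∀ N, 0 < τ N) (hτ : Tendsto τ U atTop) (R : ℝ) :
    ∀ᶠ N in U, ∀ g : Γ, up gap θ (τ N) g ≠ 0 → ∀ i ∈ θ, R ≤ gap i g := by
  filter_upwards [hτ.eventually_ge_atTop R] with N hN g hg i hi
  exact hN.trans (up_ne (hτ0 N) hg i hi)

/-- **Choice of the cut-offs.** -/
theorem exists_cut (h : SharpData t mass Cpt Ping) (hg : Gaps gap cl) (w : ℕ → 𝔾) (i₀ : J)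
    {c : ℝ} (hc : ∀ r : ℝ, ∃ᶠ i in atTop, c ≤ mass (w i) (ind fun g => r < gap i₀ g)) :
    ∃ (U : Ultrafilter ℕ) (φ : ℕ → ℕ) (χ : ℕ → Γ → ℝ) (μ : ℝ), (U : Filter ℕ) ≤ atTop ∧
      (∀ N, N ≤ φ N) ∧ (∀ N, χ N = up gap {i₀} ((N : ℝ) + 1)) ∧ Cut U χ ∧
      (∀ R : ℝ, ∀ᶠ N in U, ∀ g, χ N g ≠ 0 → R ≤ gap i₀ g) ∧
      Tendsto (fun N => mass (w (φ N)) (χ N)) U (𝓝 μ) ∧ c ≤ μ := by
  have h1 : ∀ N : ℕ, ∃ i, N ≤ i ∧ c ≤ mass (w i) (ind fun g => 2 * ((N : ℝ) + 1) < gap i₀ g) :=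
    fun N => (frequently_atTop.1 (hc (2 * ((N : ℝ) + 1)))) N
  choose φ hφ hm using h1
  have hU : ((hyperfilter ℕ : Ultrafilter ℕ) : Filter ℕ) ≤ atTop := Nat.hyperfilter_le_atTop
  have hτ : Tendsto (fun N : ℕ => (N : ℝ) + 1) ((hyperfilter ℕ : Ultrafilter ℕ) : Filter ℕ) atTop :=
    (tendsto_atTop_add_const_right _ _ tendsto_natCast_atTop_atTop).mono_left hU
  have hτ0 : ∀ N : ℕ, (0 : ℝ) < (N : ℝ) + 1 := fun N => by positivity
  have hcut : Cut (hyperfilter ℕ) (fun (N : ℕ) g => up gap {i₀} ((N : ℝ) + 1) g) :=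
    cut_up hg {i₀} hτ0 hτ
  have hb : ∀ N : ℕ, |mass (w (φ N)) (up gap {i₀} ((N : ℝ) + 1))| ≤ 1 * t := fun N =>
    mass_abs h _ fun g => hcut.abs_le_one N g
  refine ⟨hyperfilter ℕ, φ, fun N => up gap {i₀} ((N : ℝ) + 1), _, hU, hφ, fun _ => rfl, hcut,
    fun R => ?_, tendsto_ul hb, le_ul_of hb (Eventually.of_forall fun N => ?_)⟩
  · filter_upwards [up_start (gap := gap) {i₀} hτ0 hτ R] with N hN g hg0
    exact hN g hg0 i₀ (Finset.mem_singleton_self _)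
  · refine (hm N).trans (h.mono _ _ _ 1 (fun g => abs_ind_le _ g) (fun g => hcut.abs_le_one N g)
      fun g => ?_)
    by_cases hg0 : 2 * ((N : ℝ) + 1) < gap i₀ g
    · rw [ind_pos (P := fun g => 2 * ((N : ℝ) + 1) < gap i₀ g) hg0]
      exact (up_eq_one (θ := {i₀}) (hτ0 N) fun j hj => by
        rw [Finset.mem_singleton.1 hj]; exact hg0.le).ge
    · rw [ind_neg (P := fun g => 2 * ((N : ℝ) + 1) < gap i₀ g) hg0]
      exact (hcut.mem N g).1

/-- The negation of `∃ r, ∀ᶠ i, mass ≤ ε`. -/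
theorem frequently_of_not (h : SharpData t mass Cpt Ping) (w : ℕ → 𝔾) (i₀ : J) {ε : ℝ}
    (hn : ¬ ∃ r : ℝ, ∀ᶠ i in atTop, mass (w i) (ind fun g => r < gap i₀ g) ≤ ε) (r : ℝ) :
    ∃ᶠ i in atTop, ε ≤ mass (w i) (ind fun g => r < gap i₀ g) := by
  by_contra hcon
  refine hn ⟨r, ?_⟩
  rw [not_frequently] at hcon
  filter_upwards [hcon] with i hi
  exact (not_le.1 hi).le

end cut

end Vale.Agent.P092.H411.ResX
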