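import Vale.Agent.P092.H218.NEndP
import Vale.Agent.P092.H411.ResX

/-!
P092 (helper411), Team N, block [N-GAPB] (3a) → (3b): the residual chain in helper218's letters.
-/

set_option linter.all false

open Filter Topology

namespace Vale.Agent.P092.H411.ResX

open Vale.Agent.P092.H200 Vale.Agent.P092.H538 Vale.Agent.P092.H553 Vale.Agent.P092.H761
open Vale.Agent.P092.H515

section resid

variable {Γ 𝔾 S J : Type} [Group Γ] [DecidableEq Γ] [Group 𝔾] [Group S] [Fintype J]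
  [DecidableEq J] {t : ℝ} {mass : 𝔾 → (Γ → ℝ) → ℝ} {Cpt : Set 𝔾 → Prop}
  {Ping : (p : ℕ) → (Fin p → 𝔾) → Prop} {z : ℕ → 𝔾}
  {σ : S →* 𝔾} {r : ℕ} {gap : J → Γ → ℝ} {cl : J → Fin r} {m : ℕ} {b : Fin m → ℕ → S}
  {𝒦 : Fin m → Set S}

/-- **`Resid` from a chain of length `≥ r - 1` inside `S`.** -/
theorem resid_of (h : SharpData t mass Cpt Ping) (hg : Gaps gap cl)
    (hgeo : ∀ θ : Finset J, θ.Nonempty → (∀ i ∈ θ, ∀ j, cl i = cl j → j ∈ θ) → Geo gap θ)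
    (hσ : ∀ N s, z N * σ s = σ s * z N)
    (hch : GChain (fun 𝒦 => Cpt (σ '' 𝒦)) (fun p u => Ping p fun l => σ (u l)) m b 𝒦)
    (hr : r ≤ m + 1) (i₀ : J) : H218.NR.Resid mass gap cl i₀ z σ := by
  intro U χ _ hC μ hμ hlim
  obtain ⟨c, hc, hR⟩ := res_all h hg hgeo ⟨hC.mem, hC.slow⟩ hσ hμ hlim i₀ hC.large hch hr
  exact ⟨c, hc, fun R => by
    obtain ⟨s, _, hs⟩ := hR R
    exact ⟨s, hs⟩⟩

/-- `Resid` from the full chain, whose tail lies in `S`. -/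
theorem resid_tail (h : SharpData t mass Cpt Ping) (hg : Gaps gap cl)
    (hgeo : ∀ θ : Finset J, θ.Nonempty → (∀ i ∈ θ, ∀ j, cl i = cl j → j ∈ θ) → Geo gap θ)
    (hσ : ∀ N s, z N * σ s = σ s * z N)
    {b₀ : Fin (m + 1) → ℕ → 𝔾} {𝒦₀ : Fin (m + 1) → Set 𝔾}
    (hch : GChain Cpt Ping (m + 1) b₀ 𝒦₀) (hinj : Function.Injective σ)
    (hb : ∀ j M, σ (b j M) = b₀ j.succ M) (hK : ∀ j, σ '' 𝒦 j = 𝒦₀ j.succ)
    (hr : r ≤ m + 1) (i₀ : J) : H218.NR.Resid mass gap cl i₀ z σ :=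
  resid_of h hg hgeo hσ (gchain_tail hch hinj hb hK) hr i₀

end resid

end Vale.Agent.P092.H411.ResX
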