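import Vale.Agent.P092.H411.Agr
import Vale.Agent.P092.H618.RkDefs

/-!
P092 (helper411), Team N, block [N-RK] (B4): the output `agr` of the rank count from the fields
`zo2`, `tra2`, `con2`, `noinv` of `RkData` and the covariance of the calculi.
-/

set_option linter.all false

open scoped InnerProductSpace
open ContinuousLinearMap

namespace Vale.Agent.P092.H411

open Vale.Agent.P092.H618

section

variable {K : Type} [NormedAddCommGroup K] [InnerProductSpace ℂ K] [CompleteSpace K]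

/-- normalising unitaries, for the calculi -/
theorem nrm_un {Y : Type} [TopologicalSpace Y] {E E' : C(Y, ℂ) →⋆ₐ[ℂ] (K →L[ℂ] K)}
    {U U' : K →L[ℂ] K} (h1 : U * U' = 1) (h2 : U' * U = 1) {σ : C(Y, ℂ) → C(Y, ℂ)}
    (ha : ∀ f, U' * E f * U = E (σ f)) (hb : ∀ f, U' * E' f * U = E' (σ f)) :
    Nrm (fun f => E f) (fun f => E' f) U := by
  refine fun f => ⟨σ f, ?_, ?_⟩
  · change E f * U = U * E (σ f)
    rw [← ha f]
    calc E f * U = (U * U') * (E f * U) := by rw [h1, one_mul]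
      _ = U * (U' * E f * U) := by simp only [mul_assoc]
  · change E' f * U = U * E' (σ f)
    rw [← hb f]
    calc E' f * U = (U * U') * (E' f * U) := by rw [h1, one_mul]
      _ = U * (U' * E' f * U) := by simp only [mul_assoc]

variable {N : ℕ} {Y : ℕ → Type} [∀ d, MetricSpace (Y d)] [∀ d, CompactSpace (Y d)]
    {I : ∀ i j, Y i → Y j → Prop} {S : ℕ → Type} {R : ∀ i j, S i → S j → Prop}
    {Γ H : Type} [Group Γ] [Group H] [∀ d, MulAction Γ (Y d)]
    [∀ d, ContinuousConstSMul Γ (Y d)] [∀ j, MulAction H (S j)]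
    {lamG : Γ →* (K →L[ℂ] K)} {π : H →* (K →L[ℂ] K)} {W : Set (K →L[ℂ] K)}
    {lam : S N → (C(Y N, ℂ) →⋆ₐ[ℂ] (K →L[ℂ] K))}
    {bet : S 1 → (C(Y 1, ℂ) →⋆ₐ[ℂ] (K →L[ℂ] K))}

/-- the dichotomy for two calculi of spaces of the same dimension -/
theorem rk_dich (D : RkData N I R Γ H lamG π W lam bet) {j : ℕ} (h1 : 1 ≤ j) (h2 : j < N)
    {E : S (j + 1) → (C(Y (j + 1), ℂ) →⋆ₐ[ℂ] (K →L[ℂ] K))}
    (covG : ∀ X γ f, lamG γ * E X f * lamG γ⁻¹ =
      E X (f.comp ⟨fun y => γ⁻¹ • y, continuous_const_smul γ⁻¹⟩))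
    (covP : ∀ X g f, π g * E X f * π g⁻¹ = E (g • X) f)
    (covW : ∀ X, ∀ w ∈ W, ∀ f, w * E X f = E X f * w)
    {A B : S (j + 1)} (hAB : A ≠ B) (hX : ∃ X : S j, R j (j + 1) X A ∧ R j (j + 1) X B) :
    (∀ f, E A f = E B f) ∨ ∀ ξ, (∀ f, E A f ξ = E B f ξ) → ξ = 0 := by
  have hp : ∀ g : H, π g * π g⁻¹ = 1 := fun g => by rw [← map_mul, mul_inv_cancel, map_one]
  have hp' : ∀ g : H, π g⁻¹ * π g = 1 := fun g => by rw [← map_mul, inv_mul_cancel, map_one]
  have hl : ∀ g : Γ, lamG g * lamG g⁻¹ = 1 := fun g => by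
    rw [← map_mul, mul_inv_cancel, map_one]
  have hl' : ∀ g : Γ, lamG g⁻¹ * lamG g = 1 := fun g => by
    rw [← map_mul, inv_mul_cancel, map_one]
  set P := PA (fun f => E A f) (fun f => E B f) with hP
  have nL : ∀ γ, Nrm (fun f => E A f) (fun f => E B f) (lamG γ) := by
    intro γ
    refine nrm_un (hl γ) (hl' γ)
      (σ := fun f => f.comp ⟨fun y => γ • y, continuous_const_smul _⟩) ?_ ?_
    · intro f
      have := covG A γ⁻¹ f
      simp only [inv_inv] at this
      exact this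
    · intro f
      have := covG B γ⁻¹ f
      simp only [inv_inv] at this
      exact this
  have nW : ∀ w ∈ W, Nrm (fun f => E A f) (fun f => E B f) w := fun w hw =>
    Nrm.of_comm (fun f => (covW A w hw f).symm) fun f => (covW B w hw f).symm
  have nP : ∀ g : H, g • A = A → g • B = B → Nrm (fun f => E A f) (fun f => E B f) (π g) := by
    intro g hA hB
    refine Nrm.of_comm (fun f => ?_) fun f => ?_
    · have := covP A g f
      rw [hA] at this
      calc E A f * π g = π g * E A f * π g⁻¹ * π g := by rw [this]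
        _ = π g * E A f * (π g⁻¹ * π g) := by simp only [mul_assoc]
        _ = π g * E A f := by rw [hp', mul_one]
    · have := covP B g f
      rw [hB] at this
      calc E B f * π g = π g * E B f * π g⁻¹ * π g := by rw [this]
        _ = π g * E B f * (π g⁻¹ * π g) := by simp only [mul_assoc]
        _ = π g * E B f := by rw [hp', mul_one]
  have h01 : P = 0 ∨ P = 1 := by
    refine D.zo2 j h1 h2 A B hAB hX P ?_ ?_ ?_ ?_ ?_
    · rw [hP]
      exact (isSelfAdjoint_iff'.1 (isSelfAdjoint_starProjection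
        (Agr (fun f => E A f) fun f => E B f)))
    · ext1 ζ
      exact PA_of_mem (PA_mem ζ)
    · intro γ
      refine comm_PA (nL γ) ?_
      rw [D.uG]
      exact nL γ⁻¹
    · intro w hw
      exact comm_PA (nW w hw) (nW _ (D.sW w hw))
    · intro g hA hB
      refine comm_PA (nP g hA hB) ?_
      rw [D.uπ]
      exact nP g⁻¹ (by rw [inv_smul_eq_iff, hA]) (by rw [inv_smul_eq_iff, hB])
  rcases h01 with h | h
  · right
    intro ζ hζ
    have := PA_of_mem (β₁ := fun f => E A f) (β₂ := fun f => E B f) hζ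
    rw [← hP, h] at this
    exact this.symm
  · left
    intro f
    ext1 ζ
    have := PA_mem (β₁ := fun f => E A f) (β₂ := fun f => E B f) ζ
    rw [← hP, h] at this
    exact this f

/-- a constant family of calculi is impossible -/
theorem rk_const (D : RkData N I R Γ H lamG π W lam bet) {d i : ℕ} (h1 : 1 ≤ d) (h2 : d ≤ N)
    {E : S i → (C(Y d, ℂ) →⋆ₐ[ℂ] (K →L[ℂ] K))}
    (covG : ∀ X γ f, lamG γ * E X f * lamG γ⁻¹ =
      E X (f.comp ⟨fun y => γ⁻¹ • y, continuous_const_smul γ⁻¹⟩))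
    (covP : ∀ X g f, π g * E X f * π g⁻¹ = E (g • X) f)
    (covW : ∀ X, ∀ w ∈ W, ∀ f, w * E X f = E X f * w) (X : S i)
    (hc : ∀ g : H, ∀ f, E (g • X) f = E X f) : False := by
  have hp' : ∀ g : H, π g⁻¹ * π g = 1 := fun g => by rw [← map_mul, inv_mul_cancel, map_one]
  refine D.noinv d h1 h2 (E X) (fun g f => ?_) (covW X) (covG X)
  have := covP X g f
  rw [hc] at this
  calc π g * E X f = π g * E X f * (π g⁻¹ * π g) := by rw [hp', mul_one]
    _ = π g * E X f * π g⁻¹ * π g := by simp only [mul_assoc]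
    _ = E X f * π g := by rw [this]

/-- **(B4), field `agr` of `RkOut`.** -/
theorem rk_agr (D : RkData N I R Γ H lamG π W lam bet) {j : ℕ} (h1 : 1 ≤ j) (h2 : j < N)
    {E : S (j + 1) → (C(Y (j + 1), ℂ) →⋆ₐ[ℂ] (K →L[ℂ] K))}
    (covG : ∀ X γ f, lamG γ * E X f * lamG γ⁻¹ =
      E X (f.comp ⟨fun y => γ⁻¹ • y, continuous_const_smul γ⁻¹⟩))
    (covP : ∀ X g f, π g * E X f * π g⁻¹ = E (g • X) f)
    (covW : ∀ X, ∀ w ∈ W, ∀ f, w * E X f = E X f * w)
    (A B : S (j + 1)) (hAB : A ≠ B) (hX : ∃ X : S j, R j (j + 1) X A ∧ R j (j + 1) X B) :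
    ∀ ξ : K, (∀ f, E A f ξ = E B f ξ) → ξ = 0 := by
  refine (rk_dich D h1 h2 covG covP covW hAB hX).resolve_left fun he => ?_
  have hadj : ∀ P Q : S (j + 1), (∃ X : S j, R j (j + 1) X P ∧ R j (j + 1) X Q) →
      ∀ f, E P f = E Q f := by
    intro P Q hPQ f
    by_cases hne : P = Q
    · rw [hne]
    · obtain ⟨g, hg1, hg2⟩ := D.sgeo.tra2 j h1 h2 A B P Q hAB hne hX hPQ
      rw [← hg1, ← hg2, ← covP A g f, ← covP B g f, he f]
  have hall : ∀ P Q : S (j + 1), ∀ f, E P f = E Q f := by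
    intro P Q f
    have h := D.sgeo.con2 j h1 h2 P Q
    induction h with
    | refl => rfl
    | tail _ h ih => rw [ih, hadj _ _ h f]
  exact rk_const D (by omega) (by omega) covG covP covW A fun g f => hall _ _ f

end

end Vale.Agent.P092.H411
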