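import Vale.Agent.P092.H100.Gr2
import Vale.Agent.P092.H289.Gen
import Vale.Agent.P092.H618.RkDefs

/-!
P092 (helper411), Team N, block [N-SGEO]: the geometry of the source (`H618.SGeo`) for the
Grassmannians `Gr k (Fin (N+1)) j` and the group `SL_(N+1)(k)`.
-/

set_option linter.all false

open Module Set
open scoped Matrix

namespace Vale.Agent.P092.H411.SG

open Vale.Agent.P092.H100.Gr Vale.Agent.P092.H618

section lin

variable {k : Type*} [Field k] {ι : Type*} [Fintype ι] [DecidableEq ι]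

/-- extension of a linear equivalence of subspaces -/
theorem exists_ext {L L' : Submodule k (ι → k)} (eL : L ≃ₗ[k] L') :
    ∃ e : (ι → k) ≃ₗ[k] (ι → k), ∀ x : L, e x = eL x := by
  obtain ⟨C, hC⟩ := Submodule.exists_isCompl L
  obtain ⟨C', hC'⟩ := Submodule.exists_isCompl L'
  have h1 := Submodule.finrank_add_eq_of_isCompl hC
  have h2 := Submodule.finrank_add_eq_of_isCompl hC'
  have h0 := eL.finrank_eq
  have h3 : finrank k C = finrank k C' := by omega
  let eC : C ≃ₗ[k] C' := LinearEquiv.ofFinrankEq C C' h3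
  refine ⟨(Submodule.prodEquivOfIsCompl L C hC).symm ≪≫ₗ
    (eL.prodCongr eC) ≪≫ₗ Submodule.prodEquivOfIsCompl L' C' hC', ?_⟩
  intro x
  change Submodule.prodEquivOfIsCompl L' C' hC' ((eL.prodCongr eC)
    ((Submodule.prodEquivOfIsCompl L C hC).symm x)) = _
  rw [Submodule.prodEquivOfIsCompl_symm_apply_left]
  simp

/-- independent families of the same length are conjugate -/
theorem exists_li {m : ℕ} {v v' : Fin m → ι → k} (hv : LinearIndependent k v)
    (hv' : LinearIndependent k v') : ∃ e : (ι → k) ≃ₗ[k] (ι → k), ∀ i, e (v i) = v' i := by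
  let b := Basis.span hv
  let b' := Basis.span hv'
  obtain ⟨e, he⟩ := exists_ext (b.equiv b' (Equiv.refl _))
  refine ⟨e, fun i => ?_⟩
  have h1 := he (b i)
  rw [Basis.equiv_apply, Equiv.refl_apply] at h1
  have h2 : ((b i : Submodule.span k (range v)) : ι → k) = v i :=
    congrArg Subtype.val (Basis.span_apply hv i)
  have h3 : ((b' i : Submodule.span k (range v')) : ι → k) = v' i :=
    congrArg Subtype.val (Basis.span_apply hv' i)
  rw [h2, h3] at h1
  exact h1

/-- rescaling in the direction `w`, off a subspace -/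
theorem exists_resc {L : Submodule k (ι → k)} {w : ι → k} (hw : w ∉ L) {δ : k} (hδ : δ ≠ 0) :
    ∃ S : Matrix ι ι k, S.det = δ ∧ (∀ x ∈ L, S *ᵥ x = x) ∧ ∀ x, ∃ c : k, S *ᵥ x = x + c • w := by
  obtain ⟨f, hf, hfL⟩ := Submodule.exists_le_ker_of_notMem hw
  obtain ⟨r, hr⟩ : ∃ r : ι → k, ∀ x, f x = r ⬝ᵥ x := by
    refine ⟨fun i => f (Pi.single i 1), fun x => ?_⟩
    conv_lhs => rw [pi_eq_sum_univ' x]
    rw [map_sum, dotProduct]
    refine Finset.sum_congr rfl fun i _ => ?_
    rw [map_smul, smul_eq_mul, mul_comm]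
  let u : ι → k := ((δ - 1) / f w) • w
  have key : ∀ x, (1 + Matrix.replicateCol Unit u * Matrix.replicateRow Unit r) *ᵥ x =
      x + (f x * ((δ - 1) / f w)) • w := by
    intro x
    rw [Matrix.add_mulVec, Matrix.one_mulVec, ← Matrix.mulVec_mulVec]
    congr 1
    have e1 : Matrix.replicateRow Unit r *ᵥ x = fun _ => f x := by
      funext _
      rw [hr]
      rfl
    rw [e1]
    funext i
    simp only [Matrix.mulVec, dotProduct, Matrix.replicateCol_apply, Finset.univ_unique,
      Finset.sum_const, Finset.card_singleton, one_smul, u, Pi.smul_apply, smul_eq_mul]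
    ring
  refine ⟨1 + Matrix.replicateCol Unit u * Matrix.replicateRow Unit r, ?_, fun x hx => ?_,
    fun x => ⟨_, key x⟩⟩
  · rw [Matrix.det_one_add_replicateCol_mul_replicateRow, ← hr]
    change 1 + f (((δ - 1) / f w) • w) = δ
    rw [map_smul, smul_eq_mul, div_mul_cancel₀ _ hf]
    ring
  · have h0 : f x = 0 := hfL hx
    rw [key, h0, zero_mul, zero_smul, add_zero]

end lin

section gr

variable {k : Type*} [Field k] {ι : Type*} [Fintype ι] [DecidableEq ι] {j : ℕ}

theorem eqle {L L' : Gr k ι j} (h : L.1 ≤ L'.1) : L = L' :=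
  Subtype.ext (Submodule.eq_of_le_of_finrank_eq h (L.2.trans L'.2.symm))

/-- a space containing `X` with one more dimension is `X + a` -/
theorem exists_gen {X : Gr k ι j} {A : Gr k ι (j + 1)} (h : X.1 ≤ A.1) :
    ∃ a ∈ A.1, a ∉ X.1 ∧ A.1 = Submodule.span k (insert a (X.1 : Set (ι → k))) := by
  have hne : ¬ A.1 ≤ X.1 := by
    intro h1
    have := Submodule.finrank_mono h1
    rw [A.2, X.2] at this
    omega
  obtain ⟨a, haA, haX⟩ := Set.not_subset.1 hne
  refine ⟨a, haA, haX, ?_⟩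
  symm
  refine Submodule.eq_of_le_of_finrank_le ?_ ?_
  · rw [Submodule.span_le, Set.insert_subset_iff]
    exact ⟨haA, h⟩
  · rw [A.2]
    have hlt : X.1 < Submodule.span k (insert a (X.1 : Set (ι → k))) := by
      refine lt_of_le_of_ne ?_ ?_
      · intro x hx
        exact Submodule.subset_span (Set.mem_insert_of_mem _ hx)
      · intro he
        exact haX (he ▸ Submodule.subset_span (Set.mem_insert _ _))
    have := Submodule.finrank_lt_finrank_of_lt hlt
    rw [X.2] at this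
    omega

/-- `SL` is transitive on the pairs of different spaces with a common hyperplane. -/
theorem exists_pair {A B A' B' : Gr k ι (j + 1)} (hAB : A ≠ B) (hAB' : A' ≠ B')
    (h : ∃ X : Gr k ι j, X.1 ≤ A.1 ∧ X.1 ≤ B.1) (h' : ∃ X : Gr k ι j, X.1 ≤ A'.1 ∧ X.1 ≤ B'.1) :
    ∃ g : Matrix.SpecialLinearGroup ι k, g • A = A' ∧ g • B = B' := by
  have key : ∀ A B : Gr k ι (j + 1), A ≠ B → (∃ X : Gr k ι j, X.1 ≤ A.1 ∧ X.1 ≤ B.1) →
      ∃ (u : Fin j → ι → k) (a b : ι → k),
        LinearIndependent k (Fin.cons b (Fin.cons a u : Fin (j + 1) → ι → k) : Fin (j + 2) → ι → k) ∧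
        A.1 = Submodule.span k (insert a (range u)) ∧
        B.1 = Submodule.span k (insert b (range u)) ∧ a ∉ B.1 := by
    rintro A B hAB ⟨X, hA, hB⟩
    obtain ⟨a, haA, haX, eA⟩ := exists_gen hA
    obtain ⟨b, hbB, hbX, eB⟩ := exists_gen hB
    obtain ⟨u, hu⟩ := sp_surj X
    have hX : X.1 = Submodule.span k (range u.1) := by rw [← hu]; rfl
    have eA' : A.1 = Submodule.span k (insert a (range u.1)) := by
      rw [eA, Submodule.span_insert, Submodule.span_insert, Submodule.span_eq, hX]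
    have eB' : B.1 = Submodule.span k (insert b (range u.1)) := by
      rw [eB, Submodule.span_insert, Submodule.span_insert, Submodule.span_eq, hX]
    have hbA : b ∉ A.1 := by
      intro hb
      refine hAB (eqle ?_).symm
      rw [eB', Submodule.span_le, Set.insert_subset_iff]
      refine ⟨hb, ?_⟩
      rintro _ ⟨i, rfl⟩
      exact hA (hX ▸ Submodule.subset_span ⟨i, rfl⟩)
    have haB : a ∉ B.1 := by
      intro ha
      refine hAB (eqle ?_)
      rw [eA', Submodule.span_le, Set.insert_subset_iff]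
      refine ⟨ha, ?_⟩
      rintro _ ⟨i, rfl⟩
      exact hB (hX ▸ Submodule.subset_span ⟨i, rfl⟩)
    refine ⟨u.1, a, b, ?_, eA', eB', haB⟩
    rw [linearIndependent_finCons, linearIndependent_finCons, Fin.range_cons]
    refine ⟨⟨u.2, ?_⟩, ?_⟩
    · rw [← hX]
      exact haX
    · rw [← eA']
      exact hbA
  obtain ⟨u, a, b, hli, hA, hB, -⟩ := key A B hAB h
  obtain ⟨u', a', b', hli', hA', hB', haB'⟩ := key A' B' hAB' h'
  obtain ⟨e, he⟩ := exists_li hli hli'
  have eb : e b = b' := he 0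
  have ea : e a = a' := he 1
  have eu : ∀ i, e (u i) = u' i := fun i => he i.succ.succ
  let M : Matrix ι ι k := LinearMap.toMatrix' (e : (ι → k) →ₗ[k] (ι → k))
  have hM : M.det ≠ 0 := by
    rw [LinearMap.det_toMatrix']
    exact (LinearEquiv.isUnit_det' e).ne_zero
  have eM : ∀ x, M *ᵥ x = e x := by
    intro x
    change LinearMap.toMatrix' (e : (ι → k) →ₗ[k] (ι → k)) *ᵥ x = e x
    rw [LinearMap.toMatrix'_mulVec]
    rfl
  obtain ⟨S, hS, hSB, hSw⟩ := exists_resc haB' (inv_ne_zero hM)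
  have ha'A' : a' ∈ A'.1 := by
    rw [hA']
    exact Submodule.subset_span (Set.mem_insert _ _)
  let g : Matrix.SpecialLinearGroup ι k :=
    ⟨S * M, by rw [Matrix.det_mul, hS, inv_mul_cancel₀ hM]⟩
  have hg : ∀ x, g • x = S *ᵥ e x := by
    intro x
    change (S * M) *ᵥ x = S *ᵥ e x
    rw [← Matrix.mulVec_mulVec, eM]
  have hmapA : ∀ x ∈ A.1, e x ∈ A'.1 := by
    intro x hx
    have h1 : A.1 ≤ A'.1.comap (e : (ι → k) →ₗ[k] (ι → k)) := by
      rw [hA, Submodule.span_le, Set.insert_subset_iff]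
      refine ⟨?_, ?_⟩
      · change e a ∈ A'.1
        rw [ea]
        exact ha'A'
      · rintro _ ⟨i, rfl⟩
        change e (u i) ∈ A'.1
        rw [eu, hA']
        exact Submodule.subset_span (Set.mem_insert_of_mem _ ⟨i, rfl⟩)
    exact h1 hx
  have hmapB : ∀ x ∈ B.1, e x ∈ B'.1 := by
    intro x hx
    have h1 : B.1 ≤ B'.1.comap (e : (ι → k) →ₗ[k] (ι → k)) := by
      rw [hB, Submodule.span_le, Set.insert_subset_iff]
      refine ⟨?_, ?_⟩
      · change e b ∈ B'.1
        rw [eb, hB']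
        exact Submodule.subset_span (Set.mem_insert _ _)
      · rintro _ ⟨i, rfl⟩
        change e (u i) ∈ B'.1
        rw [eu, hB']
        exact Submodule.subset_span (Set.mem_insert_of_mem _ ⟨i, rfl⟩)
    exact h1 hx
  refine ⟨g, eqle ?_, eqle ?_⟩
  · rintro _ ⟨x, hx, rfl⟩
    change g • x ∈ A'.1
    rw [hg]
    obtain ⟨c, hc⟩ := hSw (e x)
    rw [hc]
    exact A'.1.add_mem (hmapA x hx) (A'.1.smul_mem c ha'A')
  · rintro _ ⟨x, hx, rfl⟩
    change g • x ∈ B'.1
    rw [hg, hSB _ (hmapB x hx)]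
    exact hmapB x hx

/-- every space contains a point -/
theorem exists_pnt (hj : 1 ≤ j) (X : Gr k ι j) : ∃ c : Gr k ι 1, c.1 ≤ X.1 := by
  have hne : X.1 ≠ ⊥ := by
    intro h
    have := X.2
    rw [h, finrank_bot] at this
    omega
  obtain ⟨v, hv, h0⟩ := (Submodule.ne_bot_iff _).1 hne
  refine ⟨⟨Submodule.span k {v}, finrank_span_singleton h0⟩, ?_⟩
  rw [Submodule.span_le, Set.singleton_subset_iff]
  exact hv

/-- every proper space is contained in a hyperplane -/
theorem exists_hyp {n : ℕ} (hn : Fintype.card ι = n + 1) (hj : j ≤ n) (X : Gr k ι j) :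
    ∃ M : Gr k ι n, X.1 ≤ M.1 := by
  have hne : X.1 ≠ ⊤ := ne_top_of_lt (by rw [X.2, hn]; omega)
  obtain ⟨f, hf, hfX⟩ := Submodule.exists_le_ker_of_lt_top X.1 (lt_top_iff_ne_top.2 hne)
  refine ⟨⟨LinearMap.ker f, ?_⟩, hfX⟩
  have h1 := LinearMap.finrank_range_add_finrank_ker f
  rw [LinearMap.range_eq_top.2 (LinearMap.surjective hf), finrank_top, finrank_self,
    finrank_fintype_fun_eq_card, hn] at h1
  omega

/-- chains of neighbours -/
theorem chain {r : Gr k ι j → Gr k ι j → Prop}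
    (hr : ∀ A B : Gr k ι j, finrank k ↥(A.1 ⊔ B.1) = j + 1 → r A B) (X Y : Gr k ι j) :
    Relation.ReflTransGen r X Y := by
  have main : ∀ (m : ℕ) (X : Gr k ι j), j ≤ finrank k ↥(X.1 ⊓ Y.1) + m →
      Relation.ReflTransGen r X Y := by
    intro m
    induction m with
    | zero =>
      intro X h
      have h1 : X.1 ⊓ Y.1 = X.1 := Submodule.eq_of_le_of_finrank_le inf_le_left (by
        rw [X.2]
        omega)
      have h2 : X = Y := eqle (inf_eq_left.1 h1)
      rw [h2]
    | succ m ih =>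
      intro X h
      by_cases hXY : X = Y
      · rw [hXY]
      · obtain ⟨Z, hZ1, hZ2, hZ3⟩ := H289.exists_step (X.2.trans Y.2.symm)
          (fun h => hXY (Subtype.ext h))
        rw [X.2] at hZ1 hZ2
        refine Relation.ReflTransGen.head (b := ⟨Z, hZ1⟩) (hr X ⟨Z, hZ1⟩ hZ2) (ih ⟨Z, hZ1⟩ ?_)
        change j ≤ finrank k ↥(Z ⊓ Y.1) + m
        omega
  exact main j X (by omega)

end gr

/-- **[N-SGEO]** -/
theorem sgeo (k : Type) [Field k] (N : ℕ) (hN : 1 ≤ N) :
    SGeo N (fun j => Gr k (Fin (N + 1)) j) (fun i j X X' => X.1 ≤ X'.1)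
      (Matrix.SpecialLinearGroup (Fin (N + 1)) k) where
  refl i X X' := ⟨fun h => eqle h, fun h => h ▸ le_rfl⟩
  trans i j l X Y Z h1 h2 := h1.trans h2
  pnt j h1 _ X := exists_pnt h1 X
  hyp j _ h2 X := exists_hyp (Fintype.card_fin _) h2 X
  act g i j X X' h := smul_le.2 h
  tra j _ h2 X X' := exists_smul (by rw [Fintype.card_fin]; omega) X X'
  con j _ _ X X' := by
    refine chain (fun A B h => ?_) X X'
    exact ⟨⟨A.1 ⊔ B.1, h⟩, le_sup_left, le_sup_right⟩
  con2 j _ _ X X' := by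
    refine chain (fun A B h => ?_) X X'
    refine ⟨⟨A.1 ⊓ B.1, ?_⟩, inf_le_left, inf_le_right⟩
    have h1 := Submodule.finrank_sup_add_finrank_inf_eq A.1 B.1
    rw [h, A.2, B.2] at h1
    omega
  tra2 j _ _ P Y P' Y' h1 h2 h3 h4 := exists_pair h1 h2 h3 h4

end Vale.Agent.P092.H411.SG
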